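/-
A nonzero derivation of the real numbers over the rationals.
-/
import Mathlib

namespace Vale.Agent.Lib.P058.NonRamsey

open KaehlerDifferential
open scoped IntermediateField.algebraAdjoinAdjoin

theorem exists_transcendental_basis :
    ∃ s : Set ℝ, IsTranscendenceBasis ℚ ((↑) : s → ℝ) ∧ s.Nonempty := by
  obtain ⟨s, hs⟩ := exists_isTranscendenceBasis ℚ ℝ
  refine ⟨s, hs, ?_⟩
  have h1 : Algebra.Transcendental ℚ ℝ := by
    have h2 := transcendental_liouvilleNumber (m := 2) le_rfl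
    refine ⟨⟨liouvilleNumber 2, ?_⟩⟩
    intro h3
    exact h2 ((IsFractionRing.isAlgebraic_iff ℤ ℚ ℝ).2 h3)
  have := hs.nonempty_iff_transcendental.2 h1
  exact Set.nonempty_coe_sort.1 this

theorem exists_derivation : ∃ d : Derivation ℚ ℝ ℝ, ∃ x : ℝ, d x ≠ 0 := by
  obtain ⟨s, hs, ⟨i, hi⟩⟩ := exists_transcendental_basis
  let i₀ : s := ⟨i, hi⟩
  let v : s → ℝ := (↑)
  have hb : AlgebraicIndependent ℚ v := hs.1
  let S := Algebra.adjoin ℚ (Set.range v)
  let K := IntermediateField.adjoin ℚ (Set.range v)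
  have h1 : Algebra.FormallyEtale S K := .of_isLocalization (nonZeroDivisors _)
  have halg : Algebra.IsAlgebraic K ℝ := hs.isAlgebraic_field
  have hsep : Algebra.IsSeparable K ℝ := Algebra.IsAlgebraic.isSeparable_of_perfectField
  have h2 : Algebra.FormallyEtale K ℝ := .of_isSeparable K ℝ
  have h3 : Algebra.FormallyEtale S ℝ := .comp S K ℝ
  let e : MvPolynomial s ℚ ≃ₐ[ℚ] S := hb.aevalEquiv
  -- the partial derivative, with values in the reals
  let δl : S →ₗ[ℚ] ℝ := (S.val).toLinearMap ∘ₗ e.toLinearMap ∘ₗ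
    ((MvPolynomial.pderiv i₀ : Derivation ℚ _ _).toLinearMap) ∘ₗ e.symm.toLinearMap
  have hδl : ∀ a, δl a = ((e (MvPolynomial.pderiv i₀ (e.symm a)) : S) : ℝ) := fun a => rfl
  let δ : Derivation ℚ S ℝ := Derivation.mk' δl (by
    intro a b
    rw [hδl, hδl, hδl, map_mul, Derivation.leibniz, map_add]
    simp only [smul_eq_mul, map_mul, AlgEquiv.apply_symm_apply]
    rfl)
  let φ : Ω[ℝ⁄ℚ] →ₗ[ℝ] ℝ :=
    (LinearMap.liftBaseChange ℝ δ.liftKaehlerDifferential) ∘ₗ
      (tensorKaehlerEquivOfFormallyEtale ℚ S ℝ).symm.toLinearMap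
  refine ⟨φ.compDer (D ℚ ℝ), v i₀, ?_⟩
  have hv : (e (MvPolynomial.X i₀) : S) = ⟨v i₀, Algebra.subset_adjoin ⟨i₀, rfl⟩⟩ := by
    apply Subtype.ext
    simp [e, AlgebraicIndependent.aevalEquiv]
  have key : φ (D ℚ ℝ (algebraMap S ℝ (e (MvPolynomial.X i₀)))) = 1 := by
    change LinearMap.liftBaseChange ℝ δ.liftKaehlerDifferential
      ((tensorKaehlerEquivOfFormallyEtale ℚ S ℝ).symm (D ℚ ℝ (algebraMap S ℝ _))) = 1
    rw [tensorKaehlerEquivOfFormallyEtale_symm_D_algebraMap, LinearMap.liftBaseChange_tmul, one_smul,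
      Derivation.liftKaehlerDifferential_comp_D]
    change δl _ = 1
    rw [hδl, AlgEquiv.symm_apply_apply, MvPolynomial.pderiv_X_self, map_one]
    rfl
  have e2 : algebraMap S ℝ (e (MvPolynomial.X i₀)) = v i₀ := by
    rw [hv]
    rfl
  rw [e2] at key
  change φ (D ℚ ℝ (v i₀)) ≠ 0
  rw [key]
  exact one_ne_zero

end Vale.Agent.Lib.P058.NonRamsey
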