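import Vale.Agent.Lib.P058.Defs
import Vale.Agent.Lib.P058.NonRamsey.Deriv

/-! # P058: a spherical set that is not Ramsey (wild colouring from a derivation of the reals)

Let `d` be a derivation of `ℝ` over `ℚ` moving the point `(c, s)` of the unit circle. Put
`h(x) = ∑ i, (d (x i)) ^ 2` on `ℝ^D`. On every congruent copy `f` of the twelve points
`(±1, 0), (0, ±1), (±c, ±s), (±s, ±c)`, write `f a = P + a₁ U + a₂ V` with `U, V` orthonormal. Then
the sum of `h` over the eight points `(±c, ±s), (±s, ±c)` minus twice the sum of `h` over the four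
points `(±1, 0), (0, ±1)` equals `8 ((d c) ^ 2 + (d s) ^ 2)`, whatever the copy is. So the colouring
`⌊h(x) / ((d c) ^ 2 + (d s) ^ 2)⌋ mod 16` has no monochromatic copy. -/

namespace Vale.Agent.Lib.P058.NonRamsey.Core

open Vale.Agent.Lib.P058 Vale.Agent.Lib.P058.NonRamsey

/-- The point `(a, b)` of the plane. -/
noncomputable def pt (a b : ℝ) : EuclideanSpace ℝ (Fin 2) := !₂[a, b]

/-- The twelve points on the unit circle. -/
def dodeca (c s : ℝ) : Set (EuclideanSpace ℝ (Fin 2)) :=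
  {pt 1 0, pt (-1) 0, pt 0 1, pt 0 (-1),
   pt c s, pt c (-s), pt (-c) s, pt (-c) (-s),
   pt s c, pt s (-c), pt (-s) c, pt (-s) (-c)}

theorem dsq {n : ℕ} (x y : EuclideanSpace ℝ (Fin n)) : dist x y ^ 2 = ∑ i, (x i - y i) ^ 2 := by
  rw [EuclideanSpace.dist_eq, Real.sq_sqrt (by positivity)]
  simp [Real.dist_eq, sq_abs]

theorem dist_pt_sq (a b a' b' : ℝ) : dist (pt a b) (pt a' b') ^ 2 = (a - a') ^ 2 + (b - b') ^ 2 := by
  rw [dsq, Fin.sum_univ_two]
  simp [pt]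

/-- A point at the right squared distances from three points is their affine combination. -/
theorem affine_coord {D : ℕ} (Y X1 X2 X3 : EuclideanSpace ℝ (Fin D)) (a1 a2 : ℝ)
    (ha : a1 ^ 2 + a2 ^ 2 = 1)
    (h1 : dist Y X1 ^ 2 = (a1 - 1) ^ 2 + (a2 - 0) ^ 2)
    (h2 : dist Y X2 ^ 2 = (a1 - (-1)) ^ 2 + (a2 - 0) ^ 2)
    (h3 : dist Y X3 ^ 2 = (a1 - 0) ^ 2 + (a2 - 1) ^ 2)
    (h12 : dist X1 X2 ^ 2 = 4) (h13 : dist X1 X3 ^ 2 = 2) (h23 : dist X2 X3 ^ 2 = 2) (i : Fin D) :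
    Y i = (X1 i + X2 i) / 2 + a1 * ((X1 i - X2 i) / 2) + a2 * (X3 i - (X1 i + X2 i) / 2) := by
  rw [dsq] at h1 h2 h3 h12 h13 h23
  set l1 : ℝ := (1 + a1 - a2) / 2 with hl1
  set l2 : ℝ := (1 - a1 - a2) / 2 with hl2
  have hsum : ∑ j, (Y j - ((X1 j + X2 j) / 2 + a1 * ((X1 j - X2 j) / 2)
      + a2 * (X3 j - (X1 j + X2 j) / 2))) ^ 2 = 0 := by
    have e : ∀ j, (Y j - ((X1 j + X2 j) / 2 + a1 * ((X1 j - X2 j) / 2)
        + a2 * (X3 j - (X1 j + X2 j) / 2))) ^ 2
        = l1 * (Y j - X1 j) ^ 2 + l2 * (Y j - X2 j) ^ 2 + a2 * (Y j - X3 j) ^ 2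
          - l1 * l2 * (X1 j - X2 j) ^ 2 - l1 * a2 * (X1 j - X3 j) ^ 2
          - l2 * a2 * (X2 j - X3 j) ^ 2 := by
      intro j
      simp only [hl1, hl2]
      ring
    simp only [e]
    rw [Finset.sum_sub_distrib, Finset.sum_sub_distrib, Finset.sum_sub_distrib,
      Finset.sum_add_distrib, Finset.sum_add_distrib]
    simp only [← Finset.mul_sum]
    rw [h1, h2, h3, h12, h13, h23]
    simp only [hl1, hl2]
    linear_combination (-(1 : ℝ) * 0) * ha
  have h0 := (Finset.sum_eq_zero_iff_of_nonneg (fun j _ => sq_nonneg _)).1 hsum i (Finset.mem_univ i)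
  have h00 := pow_eq_zero_iff (two_ne_zero) |>.1 h0
  linarith

/-- The identity for one coordinate. -/
theorem coord_id (U V P' U' V' c s c' s' : ℝ) (h1 : c ^ 2 + s ^ 2 = 1)
    (h2 : c * c' + s * s' = 0) :
    (P' + c * U' + c' * U + (s * V' + s' * V)) ^ 2
    + (P' + c * U' + c' * U + (-s * V' + -s' * V)) ^ 2
    + (P' + -c * U' + -c' * U + (s * V' + s' * V)) ^ 2
    + (P' + -c * U' + -c' * U + (-s * V' + -s' * V)) ^ 2
    + (P' + s * U' + s' * U + (c * V' + c' * V)) ^ 2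
    + (P' + s * U' + s' * U + (-c * V' + -c' * V)) ^ 2
    + (P' + -s * U' + -s' * U + (c * V' + c' * V)) ^ 2
    + (P' + -s * U' + -s' * U + (-c * V' + -c' * V)) ^ 2
    - 2 * ((P' + U') ^ 2 + (P' - U') ^ 2 + (P' + V') ^ 2 + (P' - V') ^ 2)
    = 4 * (c' ^ 2 + s' ^ 2) * (U ^ 2 + V ^ 2) := by
  linear_combination (4 * U' ^ 2 + 4 * V' ^ 2) * h1 + 8 * (U * U' + V * V') * h2

/-- The quadratic form of the derivation. -/
noncomputable def hh {D : ℕ} (d : Derivation ℚ ℝ ℝ) (x : EuclideanSpace ℝ (Fin D)) : ℝ :=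
  ∑ i, (d (x i)) ^ 2

/-- The identity on every congruent copy. -/
theorem sum_identity {D : ℕ} (d : Derivation ℚ ℝ ℝ) (c s : ℝ) (hcs : c ^ 2 + s ^ 2 = 1)
    (f : EuclideanSpace ℝ (Fin 2) → EuclideanSpace ℝ (Fin D))
    (hf : ∀ x ∈ dodeca c s, ∀ y ∈ dodeca c s, dist (f x) (f y) = dist x y) :
    hh d (f (pt c s)) + hh d (f (pt c (-s))) + hh d (f (pt (-c) s)) + hh d (f (pt (-c) (-s)))
    + hh d (f (pt s c)) + hh d (f (pt s (-c))) + hh d (f (pt (-s) c)) + hh d (f (pt (-s) (-c)))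
    - 2 * (hh d (f (pt 1 0)) + hh d (f (pt (-1) 0)) + hh d (f (pt 0 1)) + hh d (f (pt 0 (-1))))
    = 8 * ((d c) ^ 2 + (d s) ^ 2) := by
  have m1 : pt 1 0 ∈ dodeca c s := by simp [dodeca]
  have m2 : pt (-1) 0 ∈ dodeca c s := by simp [dodeca]
  have m3 : pt 0 1 ∈ dodeca c s := by simp [dodeca]
  set X1 := f (pt 1 0) with hX1
  set X2 := f (pt (-1) 0) with hX2
  set X3 := f (pt 0 1) with hX3
  let P : Fin D → ℝ := fun i => (X1 i + X2 i) / 2
  let U : Fin D → ℝ := fun i => (X1 i - X2 i) / 2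
  let V : Fin D → ℝ := fun i => X3 i - (X1 i + X2 i) / 2
  have h12 : dist X1 X2 ^ 2 = 4 := by
    rw [hX1, hX2, hf _ m1 _ m2, dist_pt_sq]; norm_num
  have h13 : dist X1 X3 ^ 2 = 2 := by
    rw [hX1, hX3, hf _ m1 _ m3, dist_pt_sq]; norm_num
  have h23 : dist X2 X3 ^ 2 = 2 := by
    rw [hX2, hX3, hf _ m2 _ m3, dist_pt_sq]; norm_num
  have hU : ∑ i, U i ^ 2 = 1 := by
    have e : ∀ i, U i ^ 2 = (X1 i - X2 i) ^ 2 / 4 := by
      intro i; simp only [U]; ring
    simp only [e]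
    rw [← Finset.sum_div, ← dsq, h12]; norm_num
  have hV : ∑ i, V i ^ 2 = 1 := by
    have e : ∀ i, V i ^ 2 = (X1 i - X3 i) ^ 2 / 2 + (X2 i - X3 i) ^ 2 / 2
        - (X1 i - X2 i) ^ 2 / 4 := by
      intro i; simp only [V]; ring
    simp only [e]
    rw [Finset.sum_sub_distrib, Finset.sum_add_distrib, ← Finset.sum_div, ← Finset.sum_div,
      ← Finset.sum_div, ← dsq, ← dsq, ← dsq, h12, h13, h23]
    norm_num
  have key : ∀ a1 a2 : ℝ, pt a1 a2 ∈ dodeca c s → a1 ^ 2 + a2 ^ 2 = 1 → ∀ i,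
      d (f (pt a1 a2) i) = d (P i) + a1 * d (U i) + d a1 * U i + (a2 * d (V i) + d a2 * V i) := by
    intro a1 a2 hm ha i
    have h := affine_coord (f (pt a1 a2)) X1 X2 X3 a1 a2 ha
      (by rw [hX1, hf _ hm _ m1, dist_pt_sq])
      (by rw [hX2, hf _ hm _ m2, dist_pt_sq])
      (by rw [hX3, hf _ hm _ m3, dist_pt_sq]) h12 h13 h23 i
    have h' : f (pt a1 a2) i = P i + a1 * U i + a2 * V i := h
    rw [h', map_add, map_add, Derivation.leibniz, Derivation.leibniz]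
    simp only [smul_eq_mul]
    ring
  have d1 : d (1 : ℝ) = 0 := Derivation.map_one_eq_zero d
  have d0 : d (0 : ℝ) = 0 := map_zero d
  have dm1 : d (-1 : ℝ) = 0 := by rw [map_neg, d1, neg_zero]
  have dnc : d (-c) = - d c := map_neg d c
  have dns : d (-s) = - d s := map_neg d s
  have hcc : c * d c + s * d s = 0 := by
    have h := congrArg d hcs
    rw [map_add, pow_two, pow_two, Derivation.leibniz, Derivation.leibniz, d1] at h
    simp only [smul_eq_mul] at h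
    linarith
  have e1 : ∀ i, d (f (pt c s) i) = d (P i) + c * d (U i) + d c * U i
      + (s * d (V i) + d s * V i) := key c s (by simp [dodeca]) hcs
  have e2 : ∀ i, d (f (pt c (-s)) i) = d (P i) + c * d (U i) + d c * U i
      + (-s * d (V i) + -d s * V i) := by
    intro i
    rw [key c (-s) (by simp [dodeca]) (by rw [neg_sq]; exact hcs) i, dns]
  have e3 : ∀ i, d (f (pt (-c) s) i) = d (P i) + -c * d (U i) + -d c * U i
      + (s * d (V i) + d s * V i) := by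
    intro i
    rw [key (-c) s (by simp [dodeca]) (by rw [neg_sq]; exact hcs) i, dnc]
  have e4 : ∀ i, d (f (pt (-c) (-s)) i) = d (P i) + -c * d (U i) + -d c * U i
      + (-s * d (V i) + -d s * V i) := by
    intro i
    rw [key (-c) (-s) (by simp [dodeca]) (by rw [neg_sq, neg_sq]; exact hcs) i, dnc, dns]
  have hsc : s ^ 2 + c ^ 2 = 1 := by rw [add_comm]; exact hcs
  have e5 : ∀ i, d (f (pt s c) i) = d (P i) + s * d (U i) + d s * U i
      + (c * d (V i) + d c * V i) := key s c (by simp [dodeca]) hsc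
  have e6 : ∀ i, d (f (pt s (-c)) i) = d (P i) + s * d (U i) + d s * U i
      + (-c * d (V i) + -d c * V i) := by
    intro i
    rw [key s (-c) (by simp [dodeca]) (by rw [neg_sq]; exact hsc) i, dnc]
  have e7 : ∀ i, d (f (pt (-s) c) i) = d (P i) + -s * d (U i) + -d s * U i
      + (c * d (V i) + d c * V i) := by
    intro i
    rw [key (-s) c (by simp [dodeca]) (by rw [neg_sq]; exact hsc) i, dns]
  have e8 : ∀ i, d (f (pt (-s) (-c)) i) = d (P i) + -s * d (U i) + -d s * U i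
      + (-c * d (V i) + -d c * V i) := by
    intro i
    rw [key (-s) (-c) (by simp [dodeca]) (by rw [neg_sq, neg_sq]; exact hsc) i, dns, dnc]
  have a1 : ∀ i, d (X1 i) = d (P i) + d (U i) := by
    intro i
    have := key 1 0 m1 (by norm_num) i
    rw [d1, d0] at this
    rw [hX1, this]; ring
  have a2 : ∀ i, d (X2 i) = d (P i) - d (U i) := by
    intro i
    have := key (-1) 0 m2 (by norm_num) i
    rw [dm1, d0] at this
    rw [hX2, this]; ring
  have a3 : ∀ i, d (X3 i) = d (P i) + d (V i) := by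
    intro i
    have := key 0 1 m3 (by norm_num) i
    rw [d1, d0] at this
    rw [hX3, this]; ring
  have a4 : ∀ i, d (f (pt 0 (-1)) i) = d (P i) - d (V i) := by
    intro i
    have := key 0 (-1) (by simp [dodeca]) (by norm_num) i
    rw [dm1, d0] at this
    rw [this]; ring
  simp only [hh, e1, e2, e3, e4, e5, e6, e7, e8, a1, a2, a3, a4]
  have hfin := fun i => coord_id (U i) (V i) (d (P i)) (d (U i)) (d (V i)) c s
    (d c) (d s) hcs hcc
  have hsum := Finset.sum_congr (rfl : (Finset.univ : Finset (Fin D)) = Finset.univ)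
    (fun i _ => hfin i)
  simp only [Finset.sum_sub_distrib, Finset.sum_add_distrib, ← Finset.mul_sum] at hsum
  rw [hsum, hU, hV]
  ring

/-- A spherical set that is not Ramsey, as soon as a derivation moves the point `(c, s)`. -/
theorem not_isRamsey_dodeca (d : Derivation ℚ ℝ ℝ) (c s : ℝ) (hcs : c ^ 2 + s ^ 2 = 1)
    (hθ : d c ≠ 0 ∨ d s ≠ 0) : ¬ IsRamsey (dodeca c s) := by
  intro hR
  have hθ2 : 0 < (d c) ^ 2 + (d s) ^ 2 := by
    rcases hθ with h | h
    · have := sq_pos_of_ne_zero h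
      positivity
    · have := sq_pos_of_ne_zero h
      positivity
  set θ2 := (d c) ^ 2 + (d s) ^ 2 with hθ2def
  obtain ⟨D, -, hD⟩ := hR 16 (by norm_num)
  let H : EuclideanSpace ℝ (Fin D) → ℝ := fun x => hh d x / θ2
  let col : EuclideanSpace ℝ (Fin D) → Fin 16 := fun x =>
    ⟨(⌊H x⌋ % 16).toNat, by omega⟩
  obtain ⟨f, k, hf, hk⟩ := hD col
  have hid := sum_identity d c s hcs f hf
  have hH : ∀ x ∈ dodeca c s, ⌊H (f x)⌋ % 16 = (k : ℕ) := by
    intro x hx
    have h := congrArg (fun y : Fin 16 => (y : ℕ)) (hk x hx)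
    have h' : (⌊H (f x)⌋ % 16).toNat = (k : ℕ) := h
    omega
  have hb1 : ∀ x, ((⌊H (f x)⌋ : ℤ) : ℝ) ≤ H (f x) := fun x => Int.floor_le _
  have hb2 : ∀ x, H (f x) < ((⌊H (f x)⌋ : ℤ) : ℝ) + 1 := fun x => Int.lt_floor_add_one _
  have hid2 : H (f (pt c s)) + H (f (pt c (-s))) + H (f (pt (-c) s)) + H (f (pt (-c) (-s)))
      + H (f (pt s c)) + H (f (pt s (-c))) + H (f (pt (-s) c)) + H (f (pt (-s) (-c)))
      - 2 * (H (f (pt 1 0)) + H (f (pt (-1) 0)) + H (f (pt 0 1)) + H (f (pt 0 (-1)))) = 8 := by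
    simp only [H]
    field_simp
    linarith
  have n1 := hH (pt c s) (by simp [dodeca])
  have n2 := hH (pt c (-s)) (by simp [dodeca])
  have n3 := hH (pt (-c) s) (by simp [dodeca])
  have n4 := hH (pt (-c) (-s)) (by simp [dodeca])
  have n5 := hH (pt s c) (by simp [dodeca])
  have n6 := hH (pt s (-c)) (by simp [dodeca])
  have n7 := hH (pt (-s) c) (by simp [dodeca])
  have n8 := hH (pt (-s) (-c)) (by simp [dodeca])
  have n9 := hH (pt 1 0) (by simp [dodeca])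
  have n10 := hH (pt (-1) 0) (by simp [dodeca])
  have n11 := hH (pt 0 1) (by simp [dodeca])
  have n12 := hH (pt 0 (-1)) (by simp [dodeca])
  set z1 := ⌊H (f (pt c s))⌋ with hz1
  set z2 := ⌊H (f (pt c (-s)))⌋ with hz2
  set z3 := ⌊H (f (pt (-c) s))⌋ with hz3
  set z4 := ⌊H (f (pt (-c) (-s)))⌋ with hz4
  set z5 := ⌊H (f (pt s c))⌋ with hz5
  set z6 := ⌊H (f (pt s (-c)))⌋ with hz6
  set z7 := ⌊H (f (pt (-s) c))⌋ with hz7
  set z8 := ⌊H (f (pt (-s) (-c)))⌋ with hz8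
  set z9 := ⌊H (f (pt 1 0))⌋ with hz9
  set z10 := ⌊H (f (pt (-1) 0))⌋ with hz10
  set z11 := ⌊H (f (pt 0 1))⌋ with hz11
  set z12 := ⌊H (f (pt 0 (-1)))⌋ with hz12
  have l1 := hb1 (pt c s); have u1 := hb2 (pt c s)
  have l2 := hb1 (pt c (-s)); have u2 := hb2 (pt c (-s))
  have l3 := hb1 (pt (-c) s); have u3 := hb2 (pt (-c) s)
  have l4 := hb1 (pt (-c) (-s)); have u4 := hb2 (pt (-c) (-s))
  have l5 := hb1 (pt s c); have u5 := hb2 (pt s c)
  have l6 := hb1 (pt s (-c)); have u6 := hb2 (pt s (-c))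
  have l7 := hb1 (pt (-s) c); have u7 := hb2 (pt (-s) c)
  have l8 := hb1 (pt (-s) (-c)); have u8 := hb2 (pt (-s) (-c))
  have l9 := hb1 (pt 1 0); have u9 := hb2 (pt 1 0)
  have l10 := hb1 (pt (-1) 0); have u10 := hb2 (pt (-1) 0)
  have l11 := hb1 (pt 0 1); have u11 := hb2 (pt 0 1)
  have l12 := hb1 (pt 0 (-1)); have u12 := hb2 (pt 0 (-1))
  rw [← hz1] at l1 u1
  rw [← hz2] at l2 u2
  rw [← hz3] at l3 u3
  rw [← hz4] at l4 u4
  rw [← hz5] at l5 u5
  rw [← hz6] at l6 u6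
  rw [← hz7] at l7 u7
  rw [← hz8] at l8 u8
  rw [← hz9] at l9 u9
  rw [← hz10] at l10 u10
  rw [← hz11] at l11 u11
  rw [← hz12] at l12 u12
  have hT1 : (0 : ℝ) < ((z1 + z2 + z3 + z4 + z5 + z6 + z7 + z8 - 2 * (z9 + z10 + z11 + z12) : ℤ) : ℝ) := by
    push_cast
    linarith
  have hT2 : ((z1 + z2 + z3 + z4 + z5 + z6 + z7 + z8 - 2 * (z9 + z10 + z11 + z12) : ℤ) : ℝ) < 16 := by
    push_cast
    linarith
  have hT1' : 0 < z1 + z2 + z3 + z4 + z5 + z6 + z7 + z8 - 2 * (z9 + z10 + z11 + z12) := by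
    exact_mod_cast hT1
  have hT2' : z1 + z2 + z3 + z4 + z5 + z6 + z7 + z8 - 2 * (z9 + z10 + z11 + z12) < 16 := by
    exact_mod_cast hT2
  omega

/-- The twelve points lie on the unit circle. -/
theorem dodeca_sphere (c s : ℝ) (hcs : c ^ 2 + s ^ 2 = 1) :
    ∀ x ∈ dodeca c s, dist x (pt 0 0) = 1 := by
  have h : ∀ a b : ℝ, a ^ 2 + b ^ 2 = 1 → dist (pt a b) (pt 0 0) = 1 := by
    intro a b hab
    have h1 := dist_pt_sq a b 0 0
    have h2 : dist (pt a b) (pt 0 0) ^ 2 = 1 := by rw [h1]; simpa using hab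
    exact (pow_eq_one_iff_of_nonneg dist_nonneg two_ne_zero).1 h2
  have hsc : s ^ 2 + c ^ 2 = 1 := by rw [add_comm]; exact hcs
  intro x hx
  simp only [dodeca, Set.mem_insert_iff, Set.mem_singleton_iff] at hx
  rcases hx with rfl | rfl | rfl | rfl | rfl | rfl | rfl | rfl | rfl | rfl | rfl | rfl
  · exact h _ _ (by norm_num)
  · exact h _ _ (by norm_num)
  · exact h _ _ (by norm_num)
  · exact h _ _ (by norm_num)
  · exact h _ _ hcs
  · exact h _ _ (by rw [neg_sq]; exact hcs)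
  · exact h _ _ (by rw [neg_sq]; exact hcs)
  · exact h _ _ (by rw [neg_sq, neg_sq]; exact hcs)
  · exact h _ _ hsc
  · exact h _ _ (by rw [neg_sq]; exact hsc)
  · exact h _ _ (by rw [neg_sq]; exact hsc)
  · exact h _ _ (by rw [neg_sq, neg_sq]; exact hsc)

/-- A point of the unit circle moved by the derivation. -/
theorem exists_moved_point (d : Derivation ℚ ℝ ℝ) (t : ℝ) (ht : d t ≠ 0) :
    ∃ c s : ℝ, c ^ 2 + s ^ 2 = 1 ∧ (d c ≠ 0 ∨ d s ≠ 0) := by
  have hpos : (1 + t ^ 2) ≠ 0 := by positivity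
  refine ⟨(1 - t ^ 2) / (1 + t ^ 2), 2 * t / (1 + t ^ 2), ?_, ?_⟩
  · field_simp
    ring
  · by_contra hcon
    rw [not_or, not_not, not_not] at hcon
    obtain ⟨hc, hs⟩ := hcon
    set c := (1 - t ^ 2) / (1 + t ^ 2) with hcdef
    set s := 2 * t / (1 + t ^ 2) with hsdef
    have e1 : (1 + t ^ 2) * c = 1 - t ^ 2 := by
      rw [hcdef]; field_simp
    have e2 : (1 + t ^ 2) * s = 2 * t := by
      rw [hsdef]; field_simp
    have d1 : d (1 : ℝ) = 0 := Derivation.map_one_eq_zero d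
    have d2 : d (2 : ℝ) = 0 := by
      have := d.map_natCast 2
      simpa using this
    have dt2 : d (t ^ 2) = 2 * t * d t := by
      rw [pow_two, Derivation.leibniz]; simp only [smul_eq_mul]; ring
    have f1 := congrArg d e1
    rw [Derivation.leibniz, map_add, map_sub, d1, dt2, hc] at f1
    simp only [smul_eq_mul] at f1
    have f2 := congrArg d e2
    rw [Derivation.leibniz, Derivation.leibniz, map_add, d1, dt2, hs, d2] at f2
    simp only [smul_eq_mul] at f2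
    have g1 : t * (c + 1) * d t = 0 := by linarith
    have g2 : (t * s - 1) * d t = 0 := by linarith
    have g1' : t * (c + 1) = 0 := (mul_eq_zero.1 g1).resolve_right ht
    have g2' : t * s - 1 = 0 := (mul_eq_zero.1 g2).resolve_right ht
    have ht0 : t ≠ 0 := by
      rintro rfl
      simp at g2'
    have hc1 : c + 1 = 0 := (mul_eq_zero.1 g1').resolve_left ht0
    have hcc : c = -1 := by linarith
    rw [hcc] at e1
    nlinarith [sq_nonneg t]

/-- **A spherical set that is not Ramsey.** -/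
theorem exists_spherical_not_ramsey :
    ∃ c s : ℝ, c ^ 2 + s ^ 2 = 1 ∧ ¬ IsRamsey (dodeca c s) := by
  obtain ⟨d, t, ht⟩ := exists_derivation
  obtain ⟨c, s, hcs, hθ⟩ := exists_moved_point d t ht
  exact ⟨c, s, hcs, not_isRamsey_dodeca d c s hcs hθ⟩

end Vale.Agent.Lib.P058.NonRamsey.Core
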