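import Mathlib
import Vale.Agent.Lib.P058.Defs

/-! # P058: a derivation criterion for a finite set not to be Ramsey

If real weights on a finite set `A` kill all polynomials of degree at most two on `A`, and a
derivation `d` of the reals satisfies two linear conditions while the weighted sum of `|d a|²` is
not zero, then the weighted sum of `|d y|²` takes that same value on every congruent copy of `A`
in every dimension, and a finite colouring of the values of `y ↦ |d y|²` has no monochromatic copy.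
-/

namespace Vale.Agent.Lib.P058.NonRamsey

open Finset

variable {κ : Type} [Fintype κ]

/-- A finite colouring of the reals without monochromatic solution of `∑ μ k * x k = K`, for real
weights of sum zero and `K ≠ 0`. -/
theorem exists_colouring (μ : κ → ℝ) (h0 : ∑ k, μ k = 0) {K : ℝ} (hK : K ≠ 0) :
    ∃ (r : ℕ) (χ : ℝ → Fin r), 2 ≤ r ∧
      ∀ (x : κ → ℝ) (j : Fin r), (∀ k, χ (x k) = j) → ∑ k, μ k * x k ≠ K := by
  classical
  obtain ⟨ℓ₀, hℓ₀⟩ : ∃ f : Module.Dual ℚ ℝ, f K ≠ 0 := by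
    by_contra hcon
    have hcon' : ∀ f : Module.Dual ℚ ℝ, f K = 0 := fun f => by
      by_contra hf
      exact hcon ⟨f, hf⟩
    exact hK ((Module.forall_dual_apply_eq_zero_iff ℚ K).1 hcon')
  -- the additive function `L` with `L K = 1`
  let L : ℝ → ℝ := fun x => ((ℓ₀ x / ℓ₀ K : ℚ) : ℝ)
  have hLK : L K = 1 := by
    simp only [L]
    rw [div_self hℓ₀]
    simp
  have hLadd : ∀ x y, L (x + y) = L x + L y := by
    intro x y
    simp only [L, map_add, add_div]
    push_cast
    ring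
  have hL0 : L 0 = 0 := by simp [L]
  have hLsum : ∀ (f : κ → ℝ) (s : Finset κ), L (∑ k ∈ s, f k) = ∑ k ∈ s, L (f k) := by
    intro f s
    induction s using Finset.induction_on with
    | empty => simp [hL0]
    | insert a s ha ih => rw [sum_insert ha, sum_insert ha, hLadd, ih]
  set n : ℕ := Fintype.card κ with hn
  set M : ℕ := n + 1 with hM
  set N : ℕ := 3 * M with hN
  have : NeZero N := ⟨by positivity⟩
  let W : ℝ → κ → ZMod N := fun x k => ((⌊L (μ k * x) * (M : ℝ)⌋ : ℤ) : ZMod N)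
  let e := Fintype.equivFin (Bool × (κ → ZMod N))
  refine ⟨Fintype.card (Bool × (κ → ZMod N)), fun x => e (true, W x), ?_, ?_⟩
  · rw [Fintype.card_prod, Fintype.card_bool]
    have : 0 < Fintype.card (κ → ZMod N) := Fintype.card_pos
    omega
  · intro x j hx hsum
    -- the index type is not empty
    have hne : Nonempty κ := by
      by_contra hem
      rw [not_nonempty_iff] at hem
      apply hK
      rw [← hsum]
      simp
    obtain ⟨k₀⟩ := hne
    have hW : ∀ k, W (x k) = W (x k₀) := by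
      intro k
      have h1 : e (true, W (x k)) = e (true, W (x k₀)) := (hx k).trans (hx k₀).symm
      have h2 := e.injective h1
      exact (Prod.mk.inj h2).2
    let p : κ → ℝ := fun k => L (μ k * x k) * (M : ℝ)
    let q : κ → ℝ := fun k => L (μ k * x k₀) * (M : ℝ)
    have hz : ∀ k, ∃ z : ℤ, ⌊p k⌋ - ⌊q k⌋ = (N : ℤ) * z := by
      intro k
      have h3 := congrFun (hW k) k
      have h4 : ((⌊p k⌋ : ℤ) : ZMod N) = ((⌊q k⌋ : ℤ) : ZMod N) := h3
      have h5 : ((N : ℕ) : ℤ) ∣ ⌊p k⌋ - ⌊q k⌋ := by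
        have := (ZMod.intCast_eq_intCast_iff_dvd_sub ⌊q k⌋ ⌊p k⌋ N).1 h4.symm
        exact this
      exact h5
    choose z hz using hz
    have hp : ∑ k, p k = (M : ℝ) := by
      simp only [p]
      rw [← sum_mul, ← hLsum, hsum, hLK, one_mul]
    have hq : ∑ k, q k = 0 := by
      simp only [q]
      rw [← sum_mul, ← hLsum, ← sum_mul, h0, zero_mul, hL0, zero_mul]
    let ε : κ → ℝ := fun k => (p k - q k) - (N : ℝ) * (z k : ℝ)
    have hε : ∀ k, |ε k| ≤ 1 := by
      intro k
      have h5 : ((⌊p k⌋ : ℤ) : ℝ) - ((⌊q k⌋ : ℤ) : ℝ) = (N : ℝ) * (z k : ℝ) := by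
        have := congrArg (fun t : ℤ => (t : ℝ)) (hz k)
        push_cast at this
        exact this
      have h6 := Int.floor_le (p k)
      have h7 := Int.lt_floor_add_one (p k)
      have h8 := Int.floor_le (q k)
      have h9 := Int.lt_floor_add_one (q k)
      have h10 : ε k = (p k - (⌊p k⌋ : ℝ)) - (q k - (⌊q k⌋ : ℝ)) := by
        simp only [ε]
        rw [← h5]
        ring
      rw [abs_le, h10]
      constructor <;> linarith
    have hE : ∑ k, ε k = (M : ℝ) - (N : ℝ) * ((∑ k, z k : ℤ) : ℝ) := by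
      simp only [ε]
      rw [sum_sub_distrib, sum_sub_distrib, hp, hq, ← mul_sum]
      push_cast
      ring
    have hEabs : |∑ k, ε k| ≤ (n : ℝ) := by
      calc |∑ k, ε k| ≤ ∑ k, |ε k| := abs_sum_le_sum_abs _ _
        _ ≤ ∑ _k : κ, (1 : ℝ) := sum_le_sum fun k _ => hε k
        _ = (n : ℝ) := by simp [hn]
    set Z : ℤ := ∑ k, z k with hZ
    have hNr : (N : ℝ) = 3 * (M : ℝ) := by simp [hN]
    have hMr : (M : ℝ) = (n : ℝ) + 1 := by simp [hM]
    have hnn : (0 : ℝ) ≤ (n : ℝ) := Nat.cast_nonneg n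
    rw [hE, hNr] at hEabs
    have hfin : |(M : ℝ) - 3 * (M : ℝ) * (Z : ℝ)| = (M : ℝ) * |1 - 3 * (Z : ℝ)| := by
      have : (M : ℝ) - 3 * (M : ℝ) * (Z : ℝ) = (M : ℝ) * (1 - 3 * (Z : ℝ)) := by ring
      rw [this, abs_mul, abs_of_nonneg (by positivity : (0 : ℝ) ≤ (M : ℝ))]
    have hge : (1 : ℝ) ≤ |1 - 3 * (Z : ℝ)| := by
      rcases le_or_gt Z 0 with h | h
      · have h' : (Z : ℝ) ≤ 0 := by exact_mod_cast h
        rw [le_abs]
        left
        linarith
      · have h' : (1 : ℝ) ≤ (Z : ℝ) := by exact_mod_cast h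
        rw [le_abs]
        right
        linarith
    rw [hfin] at hEabs
    have hMpos : (0 : ℝ) < (M : ℝ) := by rw [hMr]; linarith
    nlinarith

/-- Value of a bilinear pairing of two real combinations of coordinates functions. -/
theorem dot_sum_sum {ι₁ ι₂ γ : Type} [Fintype ι₁] [Fintype ι₂] [Fintype γ]
    (f : ι₁ → ℝ) (g : ι₂ → ℝ) (τ : ι₁ → γ → ℝ) (σ : ι₂ → γ → ℝ) :
    ∑ c, (∑ l, f l * τ l c) * (∑ m, g m * σ m c) =
      ∑ l, ∑ m, f l * g m * ∑ c, τ l c * σ m c := by
  simp_rw [sum_mul_sum, mul_sum]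
  rw [sum_comm]
  refine sum_congr rfl fun l _ => ?_
  rw [sum_comm]
  refine sum_congr rfl fun m _ => ?_
  refine sum_congr rfl fun c _ => ?_
  ring

theorem dot_const_sum {ι₁ γ : Type} [Fintype ι₁] [Fintype γ]
    (B : γ → ℝ) (f : ι₁ → ℝ) (τ : ι₁ → γ → ℝ) :
    ∑ c, B c * (∑ l, f l * τ l c) = ∑ l, f l * ∑ c, B c * τ l c := by
  simp_rw [mul_sum]
  rw [sum_comm]
  refine sum_congr rfl fun l _ => sum_congr rfl fun c _ => ?_
  ring

/-- For weights of sum zero the inner product of two combinations only depends on the distances. -/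
theorem comb_eq {E : Type*} [NormedAddCommGroup E] [InnerProductSpace ℝ E] (z : κ → E)
    (γ γ' : κ → ℝ) (h : ∑ i, γ i = 0) (h' : ∑ j, γ' j = 0) :
    inner ℝ (∑ i, γ i • z i) (∑ j, γ' j • z j) =
      -(1 / 2) * ∑ i, ∑ j, γ i * γ' j * dist (z i) (z j) ^ 2 := by
  have key : ∀ i j, inner ℝ (z i) (z j) = (‖z i‖ ^ 2 + ‖z j‖ ^ 2 - dist (z i) (z j) ^ 2) / 2 := by
    intro i j
    rw [dist_eq_norm]
    have := norm_sub_sq_real (z i) (z j)
    linarith
  have h1 : inner ℝ (∑ i, γ i • z i) (∑ j, γ' j • z j) =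
      ∑ i, ∑ j, γ i * γ' j * inner ℝ (z i) (z j) := by
    rw [sum_inner]
    refine sum_congr rfl fun i _ => ?_
    rw [inner_sum]
    refine sum_congr rfl fun j _ => ?_
    rw [real_inner_smul_left, real_inner_smul_right]
    ring
  have h2 : ∑ i, ∑ j, γ i * γ' j * ‖z i‖ ^ 2 = 0 := by
    refine sum_eq_zero fun i _ => ?_
    have : ∑ j, γ i * γ' j * ‖z i‖ ^ 2 = γ i * ‖z i‖ ^ 2 * ∑ j, γ' j := by
      rw [mul_sum]
      refine sum_congr rfl fun j _ => ?_
      ring
    rw [this, h', mul_zero]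
  have h3 : ∑ i, ∑ j, γ i * γ' j * ‖z j‖ ^ 2 = 0 := by
    rw [sum_comm]
    refine sum_eq_zero fun j _ => ?_
    have : ∑ i, γ i * γ' j * ‖z j‖ ^ 2 = γ' j * ‖z j‖ ^ 2 * ∑ i, γ i := by
      rw [mul_sum]
      refine sum_congr rfl fun i _ => ?_
      ring
    rw [this, h, mul_zero]
  rw [h1]
  have h4 : ∑ i, ∑ j, γ i * γ' j * inner ℝ (z i) (z j) =
      (1 / 2) * (∑ i, ∑ j, γ i * γ' j * ‖z i‖ ^ 2) + (1 / 2) * (∑ i, ∑ j, γ i * γ' j * ‖z j‖ ^ 2) -
        (1 / 2) * ∑ i, ∑ j, γ i * γ' j * dist (z i) (z j) ^ 2 := by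
    simp only [mul_sum, ← sum_add_distrib, ← sum_sub_distrib]
    refine sum_congr rfl fun i _ => sum_congr rfl fun j _ => ?_
    rw [key]
    ring
  rw [h4, h2, h3]
  ring

/-- The inner products of real combinations of weight zero agree on congruent families. -/
theorem inner_comb {E F : Type*} [NormedAddCommGroup E] [InnerProductSpace ℝ E]
    [NormedAddCommGroup F] [InnerProductSpace ℝ F] (x : κ → E) (y : κ → F)
    (hd : ∀ i j, dist (y i) (y j) = dist (x i) (x j)) (γ γ' : κ → ℝ)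
    (h : ∑ i, γ i = 0) (h' : ∑ j, γ' j = 0) :
    inner ℝ (∑ i, γ i • y i) (∑ j, γ' j • y j) = inner ℝ (∑ i, γ i • x i) (∑ j, γ' j • x j) := by
  rw [comb_eq y γ γ' h h', comb_eq x γ γ' h h']
  simp only [hd]

/-- The real coordinates of a distance preserving family: it is an affine image of the source under
orthonormal vectors. -/
theorem exists_frame {ι : Type} [Fintype ι] [DecidableEq ι] {D : ℕ} [DecidableEq κ]
    (a : κ → EuclideanSpace ℝ ι) (y : κ → EuclideanSpace ℝ (Fin D))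
    (hd : ∀ i j, dist (y i) (y j) = dist (a i) (a j)) (k₀ : κ)
    (c : ι → κ → ℝ) (hc0 : ∀ l, ∑ k, c l k = 0)
    (hc1 : ∀ l m, ∑ k, c l k * a k m = if l = m then 1 else 0) :
    ∃ (t : ι → Fin D → ℝ) (b : Fin D → ℝ),
      (∀ l m, ∑ p, t l p * t m p = if l = m then (1 : ℝ) else 0) ∧
      ∀ k p, y k p = b p + ∑ l, a k l * t l p := by
  let T : ι → EuclideanSpace ℝ (Fin D) := fun l => ∑ k, c l k • y k
  have hSa : ∀ l, ∀ m, (∑ k, c l k • a k) m = if l = m then 1 else 0 := by
    intro l m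
    rw [← hc1 l m]
    simp [Finset.sum_apply]
  have horth : ∀ l m, ∑ p, T l p * T m p = if l = m then (1 : ℝ) else 0 := by
    intro l m
    have h1 := inner_comb a y hd (c l) (c m) (hc0 l) (hc0 m)
    have h2 : inner ℝ (∑ i, c l i • y i) (∑ j, c m j • y j) = ∑ p, T l p * T m p := by
      rw [PiLp.inner_apply]
      refine sum_congr rfl fun p _ => ?_
      simp [T, mul_comm]
    have h3 : inner ℝ (∑ i, c l i • a i) (∑ j, c m j • a j) = if l = m then (1 : ℝ) else 0 := by
      rw [PiLp.inner_apply]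
      simp only [RCLike.inner_apply, conj_trivial, hSa]
      by_cases hlm : l = m
      · subst hlm
        simp
      · have hml : ¬ m = l := fun h => hlm h.symm
        simp [hlm, hml]
    rw [← h2, h1, h3]
  refine ⟨fun l p => T l p, fun p => y k₀ p - ∑ l, a k₀ l * T l p, horth, ?_⟩
  intro k p
  -- the weights of the affine relation
  let γ : κ → ℝ := fun i => (if i = k then 1 else 0) - (if i = k₀ then 1 else 0) -
    ∑ l, (a k l - a k₀ l) * c l i
  have hexp : ∀ f : κ → ℝ, ∑ i, γ i * f i =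
      f k - f k₀ - ∑ l, (a k l - a k₀ l) * ∑ i, c l i * f i := by
    intro f
    have h1 : ∀ i, γ i * f i = (if i = k then f i else 0) - (if i = k₀ then f i else 0) -
        ∑ l, (a k l - a k₀ l) * (c l i * f i) := by
      intro i
      show ((if i = k then (1 : ℝ) else 0) - (if i = k₀ then 1 else 0) -
        ∑ l, (a k l - a k₀ l) * c l i) * f i = _
      rw [sub_mul, sub_mul, ite_mul, ite_mul, one_mul, zero_mul, sum_mul]
      simp only [mul_assoc]
    simp only [h1, sum_sub_distrib, sum_ite_eq', mem_univ, if_true]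
    rw [sum_comm]
    simp only [mul_sum]
  have hγ0 : ∑ i, γ i = 0 := by
    have h2 := hexp (fun _ => 1)
    simp only [mul_one, hc0, mul_zero, sum_const_zero, sub_self] at h2
    exact h2
  have hγa : ∑ i, γ i • a i = 0 := by
    ext m
    have h3 : (∑ i, γ i • a i) m = ∑ i, γ i * a i m := by simp [Finset.sum_apply]
    rw [h3, hexp (fun i => a i m)]
    simp only [hc1]
    simp
  have hγy : ∑ i, γ i • y i = 0 := by
    have h6 := inner_comb a y hd γ γ hγ0 hγ0
    rw [hγa, inner_zero_left] at h6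
    exact inner_self_eq_zero.1 h6
  have h7 : (∑ i, γ i • y i) p = ∑ i, γ i * y i p := by simp [Finset.sum_apply]
  have h8 : ∑ i, γ i * y i p = 0 := by
    rw [← h7, hγy]
    simp
  have h9 : ∀ l, ∑ i, c l i * y i p = T l p := by
    intro l
    simp [T, Finset.sum_apply]
  rw [hexp (fun i => y i p)] at h8
  simp only [h9, sub_mul, sum_sub_distrib] at h8
  linarith

/-- Six term expansion of a sum of squares. -/
theorem sum_six {γ : Type} [Fintype γ] (B U V : γ → ℝ) :
    ∑ p, (B p * B p + U p * U p + V p * V p + 2 * (B p * U p) + 2 * (B p * V p) + 2 * (U p * V p)) =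
      ∑ p, B p * B p + ∑ p, U p * U p + ∑ p, V p * V p + 2 * ∑ p, B p * U p +
        2 * ∑ p, B p * V p + 2 * ∑ p, U p * V p := by
  simp only [sum_add_distrib, mul_sum]

/-- Exchange of the weights with two further sums. -/
theorem swap2 {ι : Type} [Fintype ι] (μ : κ → ℝ) (f : κ → ι → ι → ℝ) (G : ι → ι → ℝ) :
    ∑ k, μ k * ∑ l, ∑ m, f k l m * G l m = ∑ l, ∑ m, (∑ k, μ k * f k l m) * G l m := by
  simp only [mul_sum, sum_mul]
  rw [sum_comm]
  refine sum_congr rfl fun l _ => ?_
  rw [sum_comm]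
  refine sum_congr rfl fun m _ => sum_congr rfl fun k _ => ?_
  ring

/-- The conserved quantity: on every congruent copy the weighted sum of `|d y|²` has the value it
has on the source. -/
theorem weighted_sum_eq {ι : Type} [Fintype ι] [DecidableEq ι] {D : ℕ} [DecidableEq κ]
    (a : κ → EuclideanSpace ℝ ι) (y : κ → EuclideanSpace ℝ (Fin D))
    (hd : ∀ i j, dist (y i) (y j) = dist (a i) (a j)) (k₀ : κ)
    (c : ι → κ → ℝ) (hc0 : ∀ l, ∑ k, c l k = 0)
    (hc1 : ∀ l m, ∑ k, c l k * a k m = if l = m then 1 else 0)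
    (μ : κ → ℝ) (h0 : ∑ k, μ k = 0) (h1 : ∀ l, ∑ k, μ k * a k l = 0)
    (h2 : ∀ l m, ∑ k, μ k * (a k l * a k m) = 0)
    (d : Derivation ℚ ℝ ℝ) (hA : ∀ l, ∑ k, μ k * d (a k l) = 0)
    (hB : ∀ l m, ∑ k, μ k * (a k l * d (a k m) - a k m * d (a k l)) = 0) :
    ∑ k, μ k * ∑ p, (d (y k p)) ^ 2 = ∑ k, μ k * ∑ l, (d (a k l)) ^ 2 := by
  obtain ⟨t, b, ht, hy⟩ := exists_frame a y hd k₀ c hc0 hc1
  -- derivatives of the frame
  let ξ : ι → Fin D → ℝ := fun l p => d (t l p)
  let B : Fin D → ℝ := fun p => d (b p)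
  let α : κ → ι → ℝ := fun k l => d (a k l)
  have hdy : ∀ k p, d (y k p) = B p + ∑ l, α k l * t l p + ∑ l, a k l * ξ l p := by
    intro k p
    rw [hy k p, map_add, map_sum, add_assoc]
    congr 1
    rw [← sum_add_distrib]
    refine sum_congr rfl fun l _ => ?_
    rw [Derivation.leibniz]
    simp only [smul_eq_mul, ξ, α]
    try ring
  have hanti : ∀ l m, ∑ p, t l p * ξ m p + ∑ p, t m p * ξ l p = 0 := by
    intro l m
    have h3 : d (∑ p, t l p * t m p) = 0 := by
      rw [ht l m]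
      split_ifs
      · exact Derivation.map_one_eq_zero d
      · exact map_zero d
    rw [map_sum] at h3
    rw [← sum_add_distrib, ← h3]
    refine sum_congr rfl fun p _ => ?_
    rw [Derivation.leibniz]
    simp only [smul_eq_mul, ξ]
    try ring
  -- the expansion at one point
  have hexp : ∀ k, ∑ p, (d (y k p)) ^ 2 =
      ∑ p, B p * B p +
      (∑ l, ∑ m, α k l * α k m * ∑ p, t l p * t m p) +
      (∑ l, ∑ m, a k l * a k m * ∑ p, ξ l p * ξ m p) +
      2 * (∑ l, α k l * ∑ p, B p * t l p) +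
      2 * (∑ l, a k l * ∑ p, B p * ξ l p) +
      2 * (∑ l, ∑ m, α k l * a k m * ∑ p, t l p * ξ m p) := by
    intro k
    rw [← dot_sum_sum (α k) (α k) t t, ← dot_sum_sum (fun l => a k l) (fun l => a k l) ξ ξ,
      ← dot_const_sum B (α k) t, ← dot_const_sum B (fun l => a k l) ξ,
      ← dot_sum_sum (α k) (fun l => a k l) t ξ]
    rw [← sum_six B (fun p => ∑ l, α k l * t l p) (fun p => ∑ l, a k l * ξ l p)]
    refine sum_congr rfl fun p _ => ?_
    rw [hdy k p]
    ring
  simp only [hexp, mul_add]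
  rw [sum_add_distrib, sum_add_distrib, sum_add_distrib, sum_add_distrib, sum_add_distrib]
  -- the six sums
  have s1 : ∑ k, μ k * ∑ p, B p * B p = 0 := by
    rw [← sum_mul, h0, zero_mul]
  have s2 : ∑ k, μ k * ∑ l, ∑ m, α k l * α k m * ∑ p, t l p * t m p =
      ∑ k, μ k * ∑ l, (d (a k l)) ^ 2 := by
    refine sum_congr rfl fun k _ => ?_
    congr 1
    refine sum_congr rfl fun l _ => ?_
    simp only [ht]
    simp only [mul_ite, mul_one, mul_zero, sum_ite_eq, mem_univ, if_true]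
    simp only [α]
    ring
  have s3 : ∑ k, μ k * ∑ l, ∑ m, a k l * a k m * ∑ p, ξ l p * ξ m p = 0 := by
    refine (swap2 μ (fun k l m => a k l * a k m) (fun l m => ∑ p, ξ l p * ξ m p)).trans ?_
    refine sum_eq_zero fun l _ => sum_eq_zero fun m _ => ?_
    have h3 := h2 l m
    show (∑ k, μ k * (a k l * a k m)) * _ = 0
    rw [h3, zero_mul]
  have s4 : ∑ k, μ k * (2 * ∑ l, α k l * ∑ p, B p * t l p) = 0 := by
    have h5 : ∀ k, μ k * (2 * ∑ l, α k l * ∑ p, B p * t l p) =
        ∑ l, (μ k * d (a k l)) * (2 * ∑ p, B p * t l p) := by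
      intro k
      rw [mul_sum, mul_sum]
      refine sum_congr rfl fun l _ => ?_
      simp only [α]
      ring
    simp only [h5]
    rw [sum_comm]
    refine sum_eq_zero fun l _ => ?_
    rw [← sum_mul, hA l, zero_mul]
  have s5 : ∑ k, μ k * (2 * ∑ l, a k l * ∑ p, B p * ξ l p) = 0 := by
    have h5 : ∀ k, μ k * (2 * ∑ l, a k l * ∑ p, B p * ξ l p) =
        ∑ l, (μ k * a k l) * (2 * ∑ p, B p * ξ l p) := by
      intro k
      rw [mul_sum, mul_sum]
      refine sum_congr rfl fun l _ => ?_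
      ring
    simp only [h5]
    rw [sum_comm]
    refine sum_eq_zero fun l _ => ?_
    rw [← sum_mul, h1 l, zero_mul]
  have s6 : ∑ k, μ k * (2 * ∑ l, ∑ m, α k l * a k m * ∑ p, t l p * ξ m p) = 0 := by
    let C : ι → ι → ℝ := fun l m => ∑ k, μ k * (α k l * a k m)
    let W : ι → ι → ℝ := fun l m => ∑ p, t l p * ξ m p
    have hC : ∀ l m, C l m = C m l := by
      intro l m
      have h6 := hB m l
      have h7 : C l m - C m l = ∑ k, μ k * (a k m * d (a k l) - a k l * d (a k m)) := by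
        simp only [C, α]
        rw [← sum_sub_distrib]
        refine sum_congr rfl fun k _ => ?_
        ring
      linarith
    have hW : ∀ l m, W l m = - W m l := by
      intro l m
      have h6 := hanti l m
      simp only [W]
      linarith
    have h7 : ∑ k, μ k * (2 * ∑ l, ∑ m, α k l * a k m * ∑ p, t l p * ξ m p) =
        2 * ∑ l, ∑ m, C l m * W l m := by
      have h8 : ∀ k, μ k * (2 * ∑ l, ∑ m, α k l * a k m * ∑ p, t l p * ξ m p) =
          2 * (μ k * ∑ l, ∑ m, α k l * a k m * ∑ p, t l p * ξ m p) := by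
        intro k
        ring
      simp only [h8]
      rw [← mul_sum]
      congr 1
      exact swap2 μ (fun k l m => α k l * a k m) (fun l m => W l m)
    have h8 : ∑ l, ∑ m, C l m * W l m = - ∑ l, ∑ m, C l m * W l m := by
      conv_lhs => rw [sum_comm]
      rw [← sum_neg_distrib]
      refine sum_congr rfl fun l _ => ?_
      rw [← sum_neg_distrib]
      refine sum_congr rfl fun m _ => ?_
      rw [hC m l, hW m l]
      ring
    rw [h7]
    linarith
  rw [s1, s2, s3, s4, s5, s6]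
  ring

/-- **Criterion.** Real weights `μ` on a finite family `a` spanning the Euclidean space kill all
polynomials of degree at most two on `a`; a derivation `d` of the reals satisfies the two linear
conditions `hA`, `hB`; and the weighted sum of `|d a|²` is not zero. Then the family is not
Ramsey. -/
theorem not_isRamsey {ι : Type} [Fintype ι] [DecidableEq ι] [DecidableEq κ]
    (a : κ → EuclideanSpace ℝ ι)
    (c : ι → κ → ℝ) (hc0 : ∀ l, ∑ k, c l k = 0)
    (hc1 : ∀ l m, ∑ k, c l k * a k m = if l = m then 1 else 0)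
    (μ : κ → ℝ) (h0 : ∑ k, μ k = 0) (h1 : ∀ l, ∑ k, μ k * a k l = 0)
    (h2 : ∀ l m, ∑ k, μ k * (a k l * a k m) = 0)
    (d : Derivation ℚ ℝ ℝ) (hA : ∀ l, ∑ k, μ k * d (a k l) = 0)
    (hB : ∀ l m, ∑ k, μ k * (a k l * d (a k m) - a k m * d (a k l)) = 0)
    (hK : ∑ k, μ k * ∑ l, (d (a k l)) ^ 2 ≠ 0) :
    ¬ Vale.Agent.Lib.P058.IsRamsey (Set.range a) := by
  intro hR
  obtain ⟨r, χ, hr, hχ⟩ := exists_colouring μ h0 hK
  obtain ⟨D, _, hc⟩ := hR r hr
  obtain ⟨f, j, hf, hj⟩ := hc (fun y => χ (∑ p, (d (y p)) ^ 2))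
  have hne : Nonempty κ := by
    by_contra hem
    rw [not_nonempty_iff] at hem
    exact hK (by simp)
  obtain ⟨k₀⟩ := hne
  have hsum := weighted_sum_eq a (fun k => f (a k))
    (fun i i' => hf _ ⟨i, rfl⟩ _ ⟨i', rfl⟩) k₀ c hc0 hc1 μ h0 h1 h2 d hA hB
  exact hχ (fun k => ∑ p, (d (f (a k) p)) ^ 2) j (fun k => hj _ ⟨k, rfl⟩) hsum

end Vale.Agent.Lib.P058.NonRamsey
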