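import Vale.Agent.Lib.P058.Defs

/-! # P058: a criterion for non-Ramsey sets, with a derivation of the reals

Let `d` be a derivation of `ℝ` over `ℚ`, and colour `x ∈ ℝ^D` through `h(x) = ∑ (d x_k)^2`. Any
distance preserving map of `A` has the form `y_i = b + ∑ a_ij e_j` with `e` orthonormal, and `d` of
this is, by the Leibniz rule, affine in `a_i` and `d a_i`, with unknown coefficients `d b`, `d e_j`.
If the weights `w` kill all the unknown terms then `∑ w_i h(y_i)` is the same nonzero number for all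
copies of `A`, and a colouring by residues of `⌊h / η⌋` has no monochromatic copy. -/

namespace Vale.Agent.Lib.P058.NonRamsey

namespace G61

open Finset

section plain

variable {I J : Type*} [Fintype I] [Fintype J]

/-- One coordinate of the identity. -/
theorem square_sum (w : I → ℝ) (a α : I → J → ℝ) (β : ℝ) (ε e : J → ℝ)
    (h1 : ∑ i, w i = 0) (h2 : ∀ j, ∑ i, w i * a i j = 0)
    (h3 : ∀ j k, ∑ i, w i * (a i j * a i k) = 0) (h4 : ∀ j, ∑ i, w i * α i j = 0) :
    ∑ i, w i * (β + ∑ j, a i j * ε j + ∑ j, α i j * e j) ^ 2 =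
      ∑ i, w i * (∑ j, α i j * e j) ^ 2 +
        2 * ∑ j, ∑ k, (∑ i, w i * (α i j * a i k)) * (e j * ε k) := by
  classical
  have hp1 : ∑ i, w i * ∑ j, a i j * ε j = 0 := by
    simp only [Finset.mul_sum]
    rw [Finset.sum_comm]
    refine Finset.sum_eq_zero fun j _ => ?_
    have : ∀ i, w i * (a i j * ε j) = (w i * a i j) * ε j := fun i => by ring
    simp only [this]
    rw [← Finset.sum_mul, h2 j, zero_mul]
  have hq1 : ∑ i, w i * ∑ j, α i j * e j = 0 := by
    simp only [Finset.mul_sum]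
    rw [Finset.sum_comm]
    refine Finset.sum_eq_zero fun j _ => ?_
    have : ∀ i, w i * (α i j * e j) = (w i * α i j) * e j := fun i => by ring
    simp only [this]
    rw [← Finset.sum_mul, h4 j, zero_mul]
  have hpp : ∑ i, w i * (∑ j, a i j * ε j) ^ 2 = 0 := by
    have : ∀ i, w i * (∑ j, a i j * ε j) ^ 2 =
        ∑ j, ∑ k, (w i * (a i j * a i k)) * (ε j * ε k) := by
      intro i
      rw [sq, Finset.sum_mul_sum, Finset.mul_sum]
      refine Finset.sum_congr rfl fun j _ => ?_
      rw [Finset.mul_sum]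
      refine Finset.sum_congr rfl fun k _ => ?_
      ring
    simp only [this]
    rw [Finset.sum_comm]
    refine Finset.sum_eq_zero fun j _ => ?_
    rw [Finset.sum_comm]
    refine Finset.sum_eq_zero fun k _ => ?_
    rw [← Finset.sum_mul, h3 j k, zero_mul]
  have hpq : ∑ i, w i * ((∑ j, α i j * e j) * ∑ j, a i j * ε j) =
      ∑ j, ∑ k, (∑ i, w i * (α i j * a i k)) * (e j * ε k) := by
    have : ∀ i, w i * ((∑ j, α i j * e j) * ∑ j, a i j * ε j) =
        ∑ j, ∑ k, (w i * (α i j * a i k)) * (e j * ε k) := by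
      intro i
      rw [Finset.sum_mul_sum, Finset.mul_sum]
      refine Finset.sum_congr rfl fun j _ => ?_
      rw [Finset.mul_sum]
      refine Finset.sum_congr rfl fun k _ => ?_
      ring
    simp only [this]
    rw [Finset.sum_comm]
    refine Finset.sum_congr rfl fun j _ => ?_
    rw [Finset.sum_comm]
    refine Finset.sum_congr rfl fun k _ => ?_
    rw [← Finset.sum_mul]
  have hexp : ∀ i, w i * (β + ∑ j, a i j * ε j + ∑ j, α i j * e j) ^ 2 =
      β ^ 2 * w i + 2 * β * (w i * ∑ j, a i j * ε j) + 2 * β * (w i * ∑ j, α i j * e j) +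
        w i * (∑ j, a i j * ε j) ^ 2 + 2 * (w i * ((∑ j, α i j * e j) * ∑ j, a i j * ε j)) +
        w i * (∑ j, α i j * e j) ^ 2 := by
    intro i
    ring
  simp only [hexp, Finset.sum_add_distrib, ← Finset.mul_sum, h1, hp1, hq1, hpp, hpq]
  ring

/-- The identity: the weighted sum does not depend on the frame. -/
theorem frame_identity {L : Type*} [Fintype L] [DecidableEq J] (d : Derivation ℚ ℝ ℝ)
    (a : I → J → ℝ) (b : L → ℝ) (e : J → L → ℝ)
    (he : ∀ j k, ∑ l, e j l * e k l = if j = k then 1 else 0) (w : I → ℝ)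
    (h1 : ∑ i, w i = 0) (h2 : ∀ j, ∑ i, w i * a i j = 0)
    (h3 : ∀ j k, ∑ i, w i * (a i j * a i k) = 0) (h4 : ∀ j, ∑ i, w i * d (a i j) = 0)
    (h5 : ∀ j k, ∑ i, w i * (d (a i j) * a i k) = ∑ i, w i * (d (a i k) * a i j)) :
    ∑ i, w i * ∑ l, (d (b l + ∑ j, a i j * e j l)) ^ 2 =
      ∑ i, w i * ∑ j, (d (a i j)) ^ 2 := by
  classical
  have hd : ∀ i l, d (b l + ∑ j, a i j * e j l) =
      d (b l) + ∑ j, a i j * d (e j l) + ∑ j, d (a i j) * e j l := by
    intro i l
    rw [map_add, map_sum, add_assoc, ← Finset.sum_add_distrib]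
    congr 1
    refine Finset.sum_congr rfl fun j _ => ?_
    rw [Derivation.leibniz]
    simp only [smul_eq_mul]
    ring
  simp only [hd]
  have hsw : ∑ i, w i * ∑ l, (d (b l) + ∑ j, a i j * d (e j l) + ∑ j, d (a i j) * e j l) ^ 2 =
      ∑ l, ∑ i, w i * (d (b l) + ∑ j, a i j * d (e j l) + ∑ j, d (a i j) * e j l) ^ 2 := by
    simp only [Finset.mul_sum]
    exact Finset.sum_comm
  rw [hsw]
  have hl : ∀ l, ∑ i, w i * (d (b l) + ∑ j, a i j * d (e j l) + ∑ j, d (a i j) * e j l) ^ 2 =
      ∑ i, w i * (∑ j, d (a i j) * e j l) ^ 2 +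
        2 * ∑ j, ∑ k, (∑ i, w i * (d (a i j) * a i k)) * (e j l * d (e k l)) := fun l =>
    square_sum w a (fun i j => d (a i j)) (d (b l)) (fun j => d (e j l)) (fun j => e j l)
      h1 h2 h3 h4
  simp only [hl]
  rw [Finset.sum_add_distrib, ← Finset.mul_sum]
  -- the mixed term vanishes
  let M : J → J → ℝ := fun j k => ∑ i, w i * (d (a i j) * a i k)
  let B : J → J → ℝ := fun j k => ∑ l, e j l * d (e k l)
  have hB : ∀ j k, B j k = - B k j := by
    intro j k
    have h0 : d (∑ l, e j l * e k l) = 0 := by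
      rw [he]
      split_ifs
      · exact Derivation.map_one_eq_zero d
      · exact map_zero d
    rw [map_sum] at h0
    have h6 : ∑ l, e j l * d (e k l) + ∑ l, e k l * d (e j l) = 0 := by
      rw [← Finset.sum_add_distrib, ← h0]
      refine Finset.sum_congr rfl fun l _ => ?_
      rw [Derivation.leibniz]
      simp only [smul_eq_mul]
    simp only [B]
    linarith
  have hT : ∑ l, ∑ j, ∑ k, M j k * (e j l * d (e k l)) = 0 := by
    have h7 : ∑ l, ∑ j, ∑ k, M j k * (e j l * d (e k l)) = ∑ j, ∑ k, M j k * B j k := by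
      rw [Finset.sum_comm]
      refine Finset.sum_congr rfl fun j _ => ?_
      rw [Finset.sum_comm]
      refine Finset.sum_congr rfl fun k _ => ?_
      rw [← Finset.mul_sum]
    rw [h7]
    have h8 : ∑ j, ∑ k, M j k * B j k = - ∑ j, ∑ k, M j k * B j k := by
      conv_lhs => rw [Finset.sum_comm]
      rw [← Finset.sum_neg_distrib]
      refine Finset.sum_congr rfl fun j _ => ?_
      rw [← Finset.sum_neg_distrib]
      refine Finset.sum_congr rfl fun k _ => ?_
      have h9 : M k j = M j k := (h5 k j)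
      rw [h9, hB k j]
      ring
    linarith
  have hT' : ∑ l, ∑ j, ∑ k, (∑ i, w i * (d (a i j) * a i k)) * (e j l * d (e k l)) = 0 := hT
  rw [hT', mul_zero, add_zero]
  rw [Finset.sum_comm]
  refine Finset.sum_congr rfl fun i _ => ?_
  rw [← Finset.mul_sum]
  congr 1
  have : ∀ l, (∑ j, d (a i j) * e j l) ^ 2 =
      ∑ j, ∑ k, d (a i j) * d (a i k) * (e j l * e k l) := by
    intro l
    rw [sq, Finset.sum_mul_sum]
    refine Finset.sum_congr rfl fun j _ => Finset.sum_congr rfl fun k _ => ?_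
    ring
  simp only [this]
  rw [Finset.sum_comm]
  refine Finset.sum_congr rfl fun j _ => ?_
  rw [Finset.sum_comm]
  simp only [← Finset.mul_sum, he]
  simp [sq]

end plain

section frame

variable {I : Type*} [Fintype I] {n D : ℕ}

/-- Inner products of combinations only depend on the Gram matrix. -/
theorem gram_comb (F : I → EuclideanSpace ℝ (Fin D)) (u : I → EuclideanSpace ℝ (Fin n))
    (hg : ∀ i k, inner ℝ (F i) (F k) = inner ℝ (u i) (u k)) (α β : I → ℝ) :
    inner ℝ (∑ i, α i • F i) (∑ k, β k • F k) = inner ℝ (∑ i, α i • u i) (∑ k, β k • u k) := by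
  simp only [sum_inner, inner_sum, real_inner_smul_left, real_inner_smul_right, hg]

/-- **Frame lemma.** A distance preserving map of an affinely spanning family is affine, with an
orthonormal frame. -/
theorem exists_frame [DecidableEq I] (a : I → EuclideanSpace ℝ (Fin n)) (i₀ : I)
    (hspan : Submodule.span ℝ (Set.range fun i => a i - a i₀) = ⊤)
    (y : I → EuclideanSpace ℝ (Fin D)) (hy : ∀ i k, dist (y i) (y k) = dist (a i) (a k)) :
    ∃ (b : EuclideanSpace ℝ (Fin D)) (e : Fin n → EuclideanSpace ℝ (Fin D)),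
      (∀ j k, inner ℝ (e j) (e k) = if j = k then (1 : ℝ) else 0) ∧
      ∀ i, y i = b + ∑ j, (a i j) • e j := by
  classical
  let F : I → EuclideanSpace ℝ (Fin D) := fun i => y i - y i₀
  let u : I → EuclideanSpace ℝ (Fin n) := fun i => a i - a i₀
  have hg : ∀ i k, inner ℝ (F i) (F k) = inner ℝ (u i) (u k) := by
    intro i k
    have e1 : ‖F i‖ = ‖u i‖ := by
      simp only [F, u]
      rw [← dist_eq_norm, ← dist_eq_norm, hy]
    have e2 : ‖F k‖ = ‖u k‖ := by
      simp only [F, u]
      rw [← dist_eq_norm, ← dist_eq_norm, hy]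
    have e3 : ‖F i - F k‖ = ‖u i - u k‖ := by
      simp only [F, u, sub_sub_sub_cancel_right]
      rw [← dist_eq_norm, ← dist_eq_norm, hy]
    have p1 := real_inner_eq_norm_mul_self_add_norm_mul_self_sub_norm_sub_mul_self_div_two (F i) (F k)
    have p2 := real_inner_eq_norm_mul_self_add_norm_mul_self_sub_norm_sub_mul_self_div_two (u i) (u k)
    rw [p1, p2, e1, e2, e3]
  -- coefficients of the standard basis
  have hc : ∀ j : Fin n, ∃ c : I → ℝ, ∑ i, c i • u i = EuclideanSpace.single j (1 : ℝ) := by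
    intro j
    have : EuclideanSpace.single j (1 : ℝ) ∈ Submodule.span ℝ (Set.range u) := by
      rw [show Set.range u = Set.range fun i => a i - a i₀ from rfl, hspan]
      trivial
    exact (Submodule.mem_span_range_iff_exists_fun ℝ).1 this
  choose c hc using hc
  let E : Fin n → EuclideanSpace ℝ (Fin D) := fun j => ∑ i, c j i • F i
  have hE : ∀ j k, inner ℝ (E j) (E k) = if j = k then (1 : ℝ) else 0 := by
    intro j k
    simp only [E]
    rw [gram_comb F u hg, hc, hc]
    simp [EuclideanSpace.inner_single_left]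
  have hF : ∀ i, F i = ∑ j, (u i j) • E j := by
    intro i
    let γ : I → ℝ := fun l => (if l = i then 1 else 0) - ∑ j, u i j * c j l
    have h1 : ∀ (G : I → EuclideanSpace ℝ (Fin D)), ∑ l, γ l • G l = G i - ∑ j, (u i j) • ∑ l, c j l • G l := by
      intro G
      simp only [γ, sub_smul, Finset.sum_sub_distrib, ite_smul, one_smul, zero_smul,
        Finset.sum_ite_eq', mem_univ, if_true, Finset.sum_smul, Finset.smul_sum, smul_smul]
      rw [Finset.sum_comm]
    have h2 : ∀ (G : I → EuclideanSpace ℝ (Fin n)), ∑ l, γ l • G l = G i - ∑ j, (u i j) • ∑ l, c j l • G l := by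
      intro G
      simp only [γ, sub_smul, Finset.sum_sub_distrib, ite_smul, one_smul, zero_smul,
        Finset.sum_ite_eq', mem_univ, if_true, Finset.sum_smul, Finset.smul_sum, smul_smul]
      rw [Finset.sum_comm]
    have h3 : ∑ l, γ l • u l = 0 := by
      rw [h2]
      simp only [hc]
      have : ∑ j, (u i j) • EuclideanSpace.single j (1 : ℝ) = u i := by
        ext m
        simp [Finset.sum_apply, Pi.single_apply]
      rw [this, sub_self]
    have h4 : ‖∑ l, γ l • F l‖ ^ 2 = 0 := by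
      rw [← real_inner_self_eq_norm_sq, gram_comb F u hg, h3, inner_zero_left]
    have h5 : ∑ l, γ l • F l = 0 := by
      simpa using h4
    rw [h1] at h5
    exact sub_eq_zero.1 h5
  refine ⟨y i₀ - ∑ j, (a i₀ j) • E j, E, hE, fun i => ?_⟩
  have h6 := hF i
  have h7 : y i = y i₀ + F i := by simp [F]
  rw [h7, h6]
  have h8 : ∑ j, (u i j) • E j = ∑ j, (a i j) • E j - ∑ j, (a i₀ j) • E j := by
    rw [← Finset.sum_sub_distrib]
    refine Finset.sum_congr rfl fun j _ => ?_
    simp only [u, PiLp.sub_apply, sub_smul]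
  rw [h8]
  abel

end frame

/-- The quadratic function of the coordinatewise derivative. -/
noncomputable def hh {D : ℕ} (d : Derivation ℚ ℝ ℝ) (x : EuclideanSpace ℝ (Fin D)) : ℝ :=
  ∑ l, (d (x l)) ^ 2

end G61

open G61 Finset

/-- **The criterion.** An affinely spanning family `a` with real weights killing all the unknown
terms of the identity, and with a nonzero constant term, is not Ramsey. -/
theorem not_isRamsey_of_derivation {n : ℕ} {I : Type} [Fintype I]
    (a : I → EuclideanSpace ℝ (Fin n)) (i₀ : I)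
    (hspan : Submodule.span ℝ (Set.range fun i => a i - a i₀) = ⊤)
    (d : Derivation ℚ ℝ ℝ) (w : I → ℝ)
    (h1 : ∑ i, w i = 0) (h2 : ∀ j, ∑ i, w i * a i j = 0)
    (h3 : ∀ j k, ∑ i, w i * (a i j * a i k) = 0)
    (h4 : ∀ j, ∑ i, w i * d (a i j) = 0)
    (h5 : ∀ j k, ∑ i, w i * (d (a i j) * a i k) = ∑ i, w i * (d (a i k) * a i j))
    (hC : ∑ i, w i * ∑ j, (d (a i j)) ^ 2 ≠ 0) : ¬ IsRamsey (Set.range a) := by
  classical
  intro hR
  let m : ℕ := Fintype.card I
  let K : ℕ := 2 * m + 1
  have hKpos : (0 : ℝ) < (K : ℝ) := by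
    simp only [K]
    positivity
  set C : ℝ := ∑ i, w i * ∑ j, (d (a i j)) ^ 2 with hCdef
  let T := I → Fin K
  let r : ℕ := Fintype.card T + 2
  obtain ⟨D, -, hc⟩ := hR r (by omega)
  let val : I → EuclideanSpace ℝ (Fin D) → ℝ := fun l x => w l * hh d x / (2 * C)
  have hcell : ∀ l x, ⌊(K : ℝ) * Int.fract (val l x)⌋₊ < K := by
    intro l x
    refine (Nat.floor_lt (mul_nonneg hKpos.le (Int.fract_nonneg _))).2 ?_
    have := Int.fract_lt_one (val l x)
    nlinarith
  let cellF : EuclideanSpace ℝ (Fin D) → T := fun x l => ⟨⌊(K : ℝ) * Int.fract (val l x)⌋₊, hcell l x⟩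
  obtain ⟨f, k, hfd, hfc⟩ := hc (fun x => Fin.castLE (by omega) (Fintype.equivFin T (cellF x)))
  let y : I → EuclideanSpace ℝ (Fin D) := fun i => f (a i)
  have hy : ∀ i i', dist (y i) (y i') = dist (a i) (a i') := fun i i' =>
    hfd _ ⟨i, rfl⟩ _ ⟨i', rfl⟩
  have hmono : ∀ i l, cellF (y i) l = cellF (y i₀) l := by
    intro i l
    have h0 := (hfc (a i) ⟨i, rfl⟩).trans (hfc (a i₀) ⟨i₀, rfl⟩).symm
    have h6 := (Fintype.equivFin T).injective (Fin.castLE_injective _ h0)
    exact congrFun h6 l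
  obtain ⟨b, e, he, hye⟩ := exists_frame a i₀ hspan y hy
  -- the identity
  have hid : ∑ i, w i * hh d (y i) = C := by
    have he' : ∀ j k, ∑ l, e j l * e k l = if j = k then (1 : ℝ) else 0 := by
      intro j j'
      rw [← he j j', PiLp.inner_apply]
      refine Finset.sum_congr rfl fun l _ => ?_
      simp [mul_comm]
    have key := frame_identity d (fun i j => a i j) (fun l => b l) (fun j l => e j l) he'
      w h1 h2 h3 h4 h5
    have hc : ∀ i l, y i l = b l + ∑ j, a i j * e j l := by
      intro i l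
      rw [hye i]
      simp [Finset.sum_apply]
    simp only [hh, hc]
    exact key
  -- the cells
  have hxi : ∀ l, ∃ (N : ℤ) (ξ : ℝ), |ξ| ≤ 1 / (K : ℝ) ∧ val l (y l) - val l (y i₀) = N + ξ := by
    intro l
    have h0 : ⌊(K : ℝ) * Int.fract (val l (y l))⌋₊ = ⌊(K : ℝ) * Int.fract (val l (y i₀))⌋₊ :=
      congrArg Fin.val (hmono l l)
    refine ⟨⌊val l (y l)⌋ - ⌊val l (y i₀)⌋, Int.fract (val l (y l)) - Int.fract (val l (y i₀)), ?_, ?_⟩
    · have hA := mul_nonneg hKpos.le (Int.fract_nonneg (val l (y l)))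
      have hB := mul_nonneg hKpos.le (Int.fract_nonneg (val l (y i₀)))
      have a1 := Nat.floor_le hA
      have a2 := Nat.lt_floor_add_one ((K : ℝ) * Int.fract (val l (y l)))
      have b1 := Nat.floor_le hB
      have b2 := Nat.lt_floor_add_one ((K : ℝ) * Int.fract (val l (y i₀)))
      rw [h0] at a1 a2
      set u := Int.fract (val l (y l)) - Int.fract (val l (y i₀)) with hu
      have hu1 : u * (K : ℝ) ≤ 1 := by
        rw [hu]
        nlinarith
      have hu2 : (-u) * (K : ℝ) ≤ 1 := by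
        rw [hu]
        nlinarith
      have hu3 := (le_div_iff₀ hKpos).2 hu1
      have hu4 := (le_div_iff₀ hKpos).2 hu2
      exact abs_le.2 ⟨by linarith, hu3⟩
    · have e1 := Int.floor_add_fract (val l (y l))
      have e2 := Int.floor_add_fract (val l (y i₀))
      push_cast
      linarith
  choose N ξ hξ hval using hxi
  have hsum1 : ∑ l, (val l (y l) - val l (y i₀)) = 1 / 2 := by
    have e1 : ∑ l, val l (y l) = C / (2 * C) := by
      simp only [val]
      rw [← Finset.sum_div, hid]
    have e2 : ∑ l, val l (y i₀) = 0 := by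
      simp only [val]
      rw [← Finset.sum_div, ← Finset.sum_mul, h1]
      simp
    rw [Finset.sum_sub_distrib, e1, e2, sub_zero]
    field_simp
  have hsum2 : ∑ l, (val l (y l) - val l (y i₀)) = ((∑ l, N l : ℤ) : ℝ) + ∑ l, ξ l := by
    push_cast
    rw [← Finset.sum_add_distrib]
    exact Finset.sum_congr rfl fun l _ => hval l
  have hΞ : |∑ l, ξ l| ≤ (m : ℝ) / (K : ℝ) := by
    calc |∑ l, ξ l| ≤ ∑ l, |ξ l| := Finset.abs_sum_le_sum_abs _ _
      _ ≤ ∑ _l : I, 1 / (K : ℝ) := Finset.sum_le_sum fun l _ => hξ l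
      _ = (m : ℝ) / (K : ℝ) := by
          rw [Finset.sum_const, Finset.card_univ, nsmul_eq_mul]
          ring
  have hmK : (m : ℝ) / (K : ℝ) < 1 / 2 := by
    rw [div_lt_iff₀ hKpos]
    simp only [K]
    push_cast
    linarith
  rw [hsum1] at hsum2
  have hb := abs_le.1 hΞ
  rcases le_or_gt (∑ l, N l) 0 with hZ | hZ
  · have : ((∑ l, N l : ℤ) : ℝ) ≤ 0 := by exact_mod_cast hZ
    linarith [hb.2]
  · have : (1 : ℝ) ≤ ((∑ l, N l : ℤ) : ℝ) := by exact_mod_cast hZ
    linarith [hb.1]

end Vale.Agent.Lib.P058.NonRamsey
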