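import Mathlib

/-! Derivations of the real numbers over the rationals with prescribed values on an algebraically
independent finite family. -/

namespace Vale.Agent.Lib.P058.NonRamsey

open KaehlerDifferential
open scoped IntermediateField.algebraAdjoinAdjoin

/-- On a transcendence basis of `ℝ` over `ℚ`, the partial derivative along one basis element
extends to a derivation of `ℝ`. -/
theorem exists_derivation_of_basis (s : Set ℝ) (hs : IsTranscendenceBasis ℚ ((↑) : s → ℝ)) (i₀ : s) :
    ∃ d : Derivation ℚ ℝ ℝ, d (i₀ : ℝ) = 1 ∧ ∀ j : s, j ≠ i₀ → d (j : ℝ) = 0 := by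
  let v : s → ℝ := (↑)
  have hb : AlgebraicIndependent ℚ v := hs.1
  let S := Algebra.adjoin ℚ (Set.range v)
  let K := IntermediateField.adjoin ℚ (Set.range v)
  have h1 : Algebra.FormallyEtale S K := .of_isLocalization (nonZeroDivisors _)
  have halg : Algebra.IsAlgebraic K ℝ := hs.isAlgebraic_field
  have hsep : Algebra.IsSeparable K ℝ := Algebra.IsAlgebraic.isSeparable_of_perfectField
  have h2 : Algebra.FormallyEtale K ℝ := .of_isSeparable K ℝ
  have h3 : Algebra.FormallyEtale S ℝ := .comp S K ℝ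
  let e : MvPolynomial s ℚ ≃ₐ[ℚ] S := hb.aevalEquiv
  let δl : S →ₗ[ℚ] ℝ := (S.val).toLinearMap ∘ₗ e.toLinearMap ∘ₗ
    ((MvPolynomial.pderiv i₀ : Derivation ℚ _ _).toLinearMap) ∘ₗ e.symm.toLinearMap
  have hδl : ∀ a, δl a = ((e (MvPolynomial.pderiv i₀ (e.symm a)) : S) : ℝ) := fun a => rfl
  let δ : Derivation ℚ S ℝ := Derivation.mk' δl (by
    intro a b
    rw [hδl, hδl, hδl, map_mul, Derivation.leibniz, map_add]
    simp only [smul_eq_mul, map_mul, AlgEquiv.apply_symm_apply]
    rfl)
  let φ : Ω[ℝ⁄ℚ] →ₗ[ℝ] ℝ :=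
    (LinearMap.liftBaseChange ℝ δ.liftKaehlerDifferential) ∘ₗ
      (tensorKaehlerEquivOfFormallyEtale ℚ S ℝ).symm.toLinearMap
  have hv : ∀ j : s, (e (MvPolynomial.X j) : S) = ⟨v j, Algebra.subset_adjoin ⟨j, rfl⟩⟩ := by
    intro j
    apply Subtype.ext
    simp [e, AlgebraicIndependent.aevalEquiv]
  have key : ∀ j : s, φ (D ℚ ℝ (v j)) = ((e (MvPolynomial.pderiv i₀ (MvPolynomial.X j)) : S) : ℝ) := by
    intro j
    have e2 : algebraMap S ℝ (e (MvPolynomial.X j)) = v j := by
      rw [hv]
      rfl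
    rw [← e2]
    change LinearMap.liftBaseChange ℝ δ.liftKaehlerDifferential
      ((tensorKaehlerEquivOfFormallyEtale ℚ S ℝ).symm (D ℚ ℝ (algebraMap S ℝ _))) = _
    rw [tensorKaehlerEquivOfFormallyEtale_symm_D_algebraMap, LinearMap.liftBaseChange_tmul, one_smul,
      Derivation.liftKaehlerDifferential_comp_D]
    change δl _ = _
    rw [hδl, AlgEquiv.symm_apply_apply]
  refine ⟨φ.compDer (D ℚ ℝ), ?_, ?_⟩
  · change φ (D ℚ ℝ (v i₀)) = 1
    rw [key, MvPolynomial.pderiv_X_self, map_one]
    rfl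
  · intro j hj
    change φ (D ℚ ℝ (v j)) = 0
    rw [key, MvPolynomial.pderiv_X_of_ne hj, map_zero]
    rfl

/-- Prescribed values on a finite algebraically independent family. -/
theorem exists_derivation_values {ι : Type} [Fintype ι] (u : ι → ℝ) (hu : AlgebraicIndependent ℚ u)
    (f : ι → ℝ) : ∃ d : Derivation ℚ ℝ ℝ, ∀ i, d (u i) = f i := by
  classical
  have hind : AlgebraicIndepOn ℚ id (Set.range u) := by
    have := hu.to_subtype_range
    exact this
  obtain ⟨t, hst, ht⟩ := exists_isTranscendenceBasis_superset hind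
  have hmem : ∀ i, u i ∈ t := fun i => hst ⟨i, rfl⟩
  choose d hd1 hd0 using fun i => exists_derivation_of_basis t ht ⟨u i, hmem i⟩
  refine ⟨∑ i, f i • d i, ?_⟩
  intro j
  have hsum : ∀ (T : Finset ι), (∑ i ∈ T, f i • d i) (u j) = ∑ i ∈ T, f i * d i (u j) := by
    intro T
    induction T using Finset.induction_on with
    | empty => simp
    | insert a T ha ih =>
      rw [Finset.sum_insert ha, Finset.sum_insert ha, Derivation.add_apply, Derivation.smul_apply, ih,
        smul_eq_mul]
  rw [hsum, Finset.sum_eq_single j]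
  · rw [show d j (u j) = 1 from hd1 j, mul_one]
  · intro i _ hij
    have hne : (⟨u j, hmem j⟩ : t) ≠ ⟨u i, hmem i⟩ := by
      intro h
      exact hij (hu.injective (congrArg Subtype.val h)).symm
    rw [show d i (u j) = 0 from hd0 i ⟨u j, hmem j⟩ hne, mul_zero]
  · intro h
    exact absurd (Finset.mem_univ j) h

/-- A transcendental real number is moved by a derivation. -/
theorem exists_derivation_of_transcendental (c : ℝ) (hc : Transcendental ℚ c) :
    ∃ d : Derivation ℚ ℝ ℝ, d c ≠ 0 := by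
  have hu : AlgebraicIndependent ℚ ![c] := algebraicIndependent_iff_transcendental.2 hc
  obtain ⟨d, hd⟩ := exists_derivation_values ![c] hu (fun _ => 1)
  refine ⟨d, ?_⟩
  have := hd 0
  simp only [Matrix.cons_val_zero] at this
  rw [this]
  exact one_ne_zero

end Vale.Agent.Lib.P058.NonRamsey
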