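import Vale.Agent.Lib.P058.Defs

/-! # P058: spherical sets which are not Ramsey

For `c` transcendental in `(0,1)`, `s = √(1 - c²)`, the twelve points `(±1, 0), (0, ±1), (±c, ±s),
(±s, ±c)` of the unit circle do not form a Ramsey set. A nonzero derivation `d` of `ℝ` gives the
function `h y = ∑ (d y_k)²` on `ℝ^D`, and on every congruent copy of the twelve points the sum of `h`
over the eight points minus twice the sum of `h` over the four points is `8 ((d c)² + (d s)²)`. -/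

namespace Vale.Agent.Lib.P058.NonRamsey.Fam12

open TensorProduct

/-- Every transcendental real number is moved by some derivation of `ℝ`. -/
theorem exists_derivation_ne {x₀ : ℝ} (hx₀ : Transcendental ℚ x₀) :
    ∃ d : Derivation ℚ ℝ ℝ, d x₀ ≠ 0 := by
  classical
  have hind : AlgebraicIndepOn ℚ id ({x₀} : Set ℝ) := by
    have h1 : AlgebraicIndependent ℚ (fun i : ({x₀} : Set ℝ) => (i : ℝ)) := by
      have h2 : AlgebraicIndependent ℚ (fun _ : Unit => x₀) :=
        (algebraicIndependent_unique_type_iff (ι := Unit)).mpr hx₀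
      have h3 : (fun i : ({x₀} : Set ℝ) => (i : ℝ)) = (fun _ : Unit => x₀) ∘ (fun _ => ()) := by
        funext i
        exact i.2
      rw [h3]
      exact h2.comp _ (fun a b _ => Subtype.ext (a.2.trans b.2.symm))
    exact h1
  obtain ⟨t, ht, hx⟩ := exists_isTranscendenceBasis_superset hind
  have hx0t : x₀ ∈ t := ht rfl
  let ι := t
  let x : ι → ℝ := Subtype.val
  let i : ι := ⟨x₀, hx0t⟩
  let A := MvPolynomial ι ℚ
  letI : Algebra A ℝ := (MvPolynomial.aeval x : A →ₐ[ℚ] ℝ).toRingHom.toAlgebra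
  have hmap : ∀ a : A, algebraMap A ℝ a = MvPolynomial.aeval x a := fun _ => rfl
  haveI : IsScalarTower ℚ A ℝ := IsScalarTower.of_algebraMap_eq fun q => by
    rw [hmap, MvPolynomial.algebraMap_eq, MvPolynomial.aeval_C]
  haveI : FaithfulSMul A ℝ := (faithfulSMul_iff_algebraMap_injective A ℝ).mpr hx.1
  letI : Algebra (FractionRing A) ℝ := FractionRing.liftAlgebra A ℝ
  haveI : IsScalarTower A (FractionRing A) ℝ := FractionRing.isScalarTower_liftAlgebra A ℝ
  haveI hiso := hx.isAlgebraic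
  haveI halg : Algebra.IsAlgebraic A ℝ := by
    refine Algebra.IsAlgebraic.of_ringHom_of_comp_eq
      (S := Algebra.adjoin ℚ (Set.range x)) (B := ℝ)
      (hx.1.aevalEquiv : A →+* Algebra.adjoin ℚ (Set.range x)) (RingHom.id ℝ)
      hx.1.aevalEquiv.surjective Function.injective_id ?_
    ext a
    · simp [hmap]
    · simp [hmap, x]
  haveI : Algebra.IsAlgebraic (FractionRing A) ℝ :=
    (IsFractionRing.comap_isAlgebraic_iff (A := A) (K := FractionRing A) (C := ℝ)).mp halg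
  haveI : CharZero (FractionRing A) := algebraRat.charZero _
  haveI : Algebra.IsSeparable (FractionRing A) ℝ := Algebra.IsAlgebraic.isSeparable_of_perfectField
  haveI : Algebra.FormallyEtale (FractionRing A) ℝ := Algebra.FormallyEtale.of_isSeparable _ _
  haveI : Algebra.FormallyEtale A (FractionRing A) :=
    Algebra.FormallyEtale.of_isLocalization (nonZeroDivisors A)
  haveI : Algebra.FormallyEtale A ℝ := Algebra.FormallyEtale.comp A (FractionRing A) ℝ
  have hD : KaehlerDifferential.D ℚ ℝ x₀ ≠ 0 := by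
    intro h0
    have h1 := KaehlerDifferential.tensorKaehlerEquivOfFormallyEtale_symm_D_algebraMap ℚ A ℝ
      (MvPolynomial.X i)
    have h2 : algebraMap A ℝ (MvPolynomial.X i) = x₀ := by
      rw [hmap, MvPolynomial.aeval_X]
    rw [h2, h0, map_zero] at h1
    let b := KaehlerDifferential.mvPolynomialBasis ℚ ι
    have h3 : KaehlerDifferential.D ℚ A (MvPolynomial.X i) = b i := by
      apply b.repr.injective
      rw [KaehlerDifferential.mvPolynomialBasis_repr_D_X]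
      simp [b]
    have h4 := (b.baseChange ℝ).ne_zero i
    apply h4
    rw [Module.Basis.baseChange_apply, ← h3]
    exact h1.symm
  have hl : ∃ l : Module.Dual ℝ (Ω[ℝ⁄ℚ]), l (KaehlerDifferential.D ℚ ℝ x₀) ≠ 0 := by
    by_contra hcon
    push Not at hcon
    exact hD ((Module.forall_dual_apply_eq_zero_iff ℝ _).mp hcon)
  obtain ⟨l, hl⟩ := hl
  exact ⟨l.compDer (KaehlerDifferential.D ℚ ℝ), by simpa using hl⟩

/-- A point of the plane. -/
noncomputable def pt (a b : ℝ) : EuclideanSpace ℝ (Fin 2) := !₂[a, b]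

theorem dist_pt_sq (a b a' b' : ℝ) : dist (pt a b) (pt a' b') ^ 2 = (a - a') ^ 2 + (b - b') ^ 2 := by
  rw [EuclideanSpace.dist_eq, Real.sq_sqrt (Finset.sum_nonneg fun _ _ => by positivity),
    Fin.sum_univ_two]
  simp [pt, Real.dist_eq, sq_abs]

/-- The twelve points. -/
noncomputable def twelve (c s : ℝ) : Set (EuclideanSpace ℝ (Fin 2)) :=
  {pt 1 0, pt (-1) 0, pt 0 1, pt 0 (-1), pt c s, pt c (-s), pt (-c) s, pt (-c) (-s),
    pt s c, pt s (-c), pt (-s) c, pt (-s) (-c)}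

theorem dist_sq_coord {D : ℕ} (y y' : EuclideanSpace ℝ (Fin D)) :
    dist y y' ^ 2 = ∑ k, (y k - y' k) ^ 2 := by
  rw [EuclideanSpace.dist_eq, Real.sq_sqrt (Finset.sum_nonneg fun _ _ => by positivity)]
  exact Finset.sum_congr rfl fun k _ => by rw [Real.dist_eq, sq_abs]

/-- Points of the plane go to the plane spanned by the images of three of them. -/
theorem coord_of_dist {D : ℕ} {y y1 y2 y3 : EuclideanSpace ℝ (Fin D)} {a b : ℝ}
    (h1 : dist y y1 ^ 2 = (a - 1) ^ 2 + b ^ 2) (h2 : dist y y2 ^ 2 = (a + 1) ^ 2 + b ^ 2)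
    (h3 : dist y y3 ^ 2 = a ^ 2 + (b - 1) ^ 2) (h12 : dist y1 y2 ^ 2 = 4) (h13 : dist y1 y3 ^ 2 = 2)
    (h23 : dist y2 y3 ^ 2 = 2) (k : Fin D) :
    y k = ((1 + a - b) / 2) * y1 k + ((1 - a - b) / 2) * y2 k + b * y3 k := by
  have key : ∑ k, (y k - (((1 + a - b) / 2) * y1 k + ((1 - a - b) / 2) * y2 k + b * y3 k)) ^ 2 = 0 := by
    have e : ∀ k, (y k - (((1 + a - b) / 2) * y1 k + ((1 - a - b) / 2) * y2 k + b * y3 k)) ^ 2
        = ((1 + a - b) / 2) * (y k - y1 k) ^ 2 + ((1 - a - b) / 2) * (y k - y2 k) ^ 2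
          + b * (y k - y3 k) ^ 2
          - ((1 + a - b) / 2) * ((1 - a - b) / 2) * (y1 k - y2 k) ^ 2
          - ((1 + a - b) / 2) * b * (y1 k - y3 k) ^ 2
          - ((1 - a - b) / 2) * b * (y2 k - y3 k) ^ 2 := by
      intro k
      ring
    rw [Finset.sum_congr rfl fun k _ => e k]
    simp only [Finset.sum_sub_distrib, Finset.sum_add_distrib, ← Finset.mul_sum, ← dist_sq_coord]
    rw [h1, h2, h3, h12, h13, h23]
    ring
  have h0 := (Finset.sum_eq_zero_iff_of_nonneg (fun _ _ => by positivity)).mp key k (Finset.mem_univ _)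
  have h00 := pow_eq_zero_iff (n := 2) (by norm_num) |>.mp h0
  linarith

/-- The twelve points of the unit circle with `(d c)` nonzero are not Ramsey. -/
theorem not_isRamsey_twelve {c s : ℝ} (hcs : c ^ 2 + s ^ 2 = 1) (d : Derivation ℚ ℝ ℝ)
    (hd : d c ≠ 0) : ¬ IsRamsey (twelve c s) := by
  classical
  obtain ⟨A, hA⟩ : ∃ A, A = d c := ⟨_, rfl⟩
  obtain ⟨B, hB⟩ : ∃ B, B = d s := ⟨_, rfl⟩
  have hAB : c * A + s * B = 0 := by
    have h1 : d (c * c + s * s) = 0 := by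
      have : c * c + s * s = 1 := by nlinarith
      rw [this]
      exact d.map_one_eq_zero
    rw [map_add, Derivation.leibniz, Derivation.leibniz, smul_eq_mul, smul_eq_mul] at h1
    rw [hA, hB]
    linarith
  obtain ⟨θ, hθ⟩ : ∃ θ, θ = A ^ 2 + B ^ 2 := ⟨_, rfl⟩
  have hθ0 : 0 < θ := by
    have : A ≠ 0 := by rw [hA]; exact hd
    rw [hθ]
    positivity
  intro H
  obtain ⟨D, -, hc⟩ := H 16 (by norm_num)
  let h : EuclideanSpace ℝ (Fin D) → ℝ := fun y => ∑ k, (d (y k)) ^ 2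
  let col : EuclideanSpace ℝ (Fin D) → Fin 16 := fun y => ((⌊h y / θ⌋ : ℤ) : ZMod 16)
  obtain ⟨f, k0, hf, hk⟩ := hc col
  -- the points
  have m1 : pt 1 0 ∈ twelve c s := by simp [twelve]
  have m2 : pt (-1) 0 ∈ twelve c s := by simp [twelve]
  have m3 : pt 0 1 ∈ twelve c s := by simp [twelve]
  have m4 : pt 0 (-1) ∈ twelve c s := by simp [twelve]
  have hdd : ∀ x ∈ twelve c s, ∀ y ∈ twelve c s, dist (f x) (f y) ^ 2 = dist x y ^ 2 := by
    intro x hx y hy
    rw [hf x hx y hy]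
  obtain ⟨y1, hy1⟩ : ∃ y1, y1 = f (pt 1 0) := ⟨_, rfl⟩
  obtain ⟨y2, hy2⟩ : ∃ y2, y2 = f (pt (-1) 0) := ⟨_, rfl⟩
  obtain ⟨y3, hy3⟩ : ∃ y3, y3 = f (pt 0 1) := ⟨_, rfl⟩
  have hcoord : ∀ a b, pt a b ∈ twelve c s → ∀ k,
      f (pt a b) k = ((1 + a - b) / 2) * y1 k + ((1 - a - b) / 2) * y2 k + b * y3 k := by
    intro a b hab k
    refine coord_of_dist ?_ ?_ ?_ ?_ ?_ ?_ k
    · rw [hy1, hdd _ hab _ m1, dist_pt_sq]
      ring
    · rw [hy2, hdd _ hab _ m2, dist_pt_sq]
      ring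
    · rw [hy3, hdd _ hab _ m3, dist_pt_sq]
      ring
    · rw [hy1, hy2, hdd _ m1 _ m2, dist_pt_sq]
      ring
    · rw [hy1, hy3, hdd _ m1 _ m3, dist_pt_sq]
      ring
    · rw [hy2, hy3, hdd _ m2 _ m3, dist_pt_sq]
      ring
  -- the frame
  let p : Fin D → ℝ := fun k => (y1 k + y2 k) / 2
  let u : Fin D → ℝ := fun k => (y1 k - y2 k) / 2
  let v : Fin D → ℝ := fun k => y3 k - p k
  have hframe : ∀ a b, pt a b ∈ twelve c s → ∀ k, f (pt a b) k = p k + a * u k + b * v k := by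
    intro a b hab k
    rw [hcoord a b hab k]
    simp only [p, u, v]
    ring
  have hu : ∑ k, u k ^ 2 = 1 := by
    have h1 : dist y1 y2 ^ 2 = 4 := by
      rw [hy1, hy2, hdd _ m1 _ m2, dist_pt_sq]
      ring
    rw [dist_sq_coord] at h1
    have e : ∀ k, u k ^ 2 = (y1 k - y2 k) ^ 2 / 4 := fun k => by
      simp only [u]
      ring
    rw [Finset.sum_congr rfl fun k _ => e k, ← Finset.sum_div, h1]
    norm_num
  have hv : ∑ k, v k ^ 2 = 1 := by
    have h1 : dist y3 (f (pt 0 (-1))) ^ 2 = 4 := by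
      rw [hy3, hdd _ m3 _ m4, dist_pt_sq]
      ring
    rw [dist_sq_coord] at h1
    have e : ∀ k, v k ^ 2 = (y3 k - f (pt 0 (-1)) k) ^ 2 / 4 := fun k => by
      rw [hframe 0 (-1) m4 k]
      simp only [v, p]
      ring
    rw [Finset.sum_congr rfl fun k _ => e k, ← Finset.sum_div, h1]
    norm_num
  -- the derivation on the frame
  have hder : ∀ a b, pt a b ∈ twelve c s → ∀ k, d (f (pt a b) k)
      = d (p k) + d a * u k + a * d (u k) + d b * v k + b * d (v k) := by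
    intro a b hab k
    rw [hframe a b hab k, map_add, map_add, Derivation.leibniz, Derivation.leibniz, smul_eq_mul,
      smul_eq_mul, smul_eq_mul, smul_eq_mul]
    ring
  have hd1 : d (1 : ℝ) = 0 := d.map_one_eq_zero
  have hdm1 : d (-1 : ℝ) = 0 := by rw [map_neg, hd1, neg_zero]
  have hd0 : d (0 : ℝ) = 0 := map_zero d
  have hdmc : d (-c) = -A := by rw [map_neg, hA]
  have hdms : d (-s) = -B := by rw [map_neg, hB]
  have hdc : d c = A := hA.symm
  have hds : d s = B := hB.symm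
  have m5 : pt c s ∈ twelve c s := by simp [twelve]
  have m6 : pt c (-s) ∈ twelve c s := by simp [twelve]
  have m7 : pt (-c) s ∈ twelve c s := by simp [twelve]
  have m8 : pt (-c) (-s) ∈ twelve c s := by simp [twelve]
  have m9 : pt s c ∈ twelve c s := by simp [twelve]
  have m10 : pt s (-c) ∈ twelve c s := by simp [twelve]
  have m11 : pt (-s) c ∈ twelve c s := by simp [twelve]
  have m12 : pt (-s) (-c) ∈ twelve c s := by simp [twelve]
  have hh : ∀ a b α β, pt a b ∈ twelve c s → d a = α → d b = β → h (f (pt a b))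
      = ∑ k, (d (p k) + α * u k + a * d (u k) + β * v k + b * d (v k)) ^ 2 := by
    intro a b α β hab ha hb
    simp only [h]
    refine Finset.sum_congr rfl fun k _ => ?_
    rw [hder a b hab k, ha, hb]
  have hid : (h (f (pt c s)) + h (f (pt c (-s))) + h (f (pt (-c) s)) + h (f (pt (-c) (-s)))
      + h (f (pt s c)) + h (f (pt s (-c))) + h (f (pt (-s) c)) + h (f (pt (-s) (-c))))
      - 2 * (h (f (pt 1 0)) + h (f (pt (-1) 0)) + h (f (pt 0 1)) + h (f (pt 0 (-1)))) = 8 * θ := by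
    rw [hh _ _ _ _ m5 hdc hds, hh _ _ _ _ m6 hdc hdms, hh _ _ _ _ m7 hdmc hds,
      hh _ _ _ _ m8 hdmc hdms, hh _ _ _ _ m9 hds hdc, hh _ _ _ _ m10 hds hdmc,
      hh _ _ _ _ m11 hdms hdc, hh _ _ _ _ m12 hdms hdmc, hh _ _ _ _ m1 hd1 hd0,
      hh _ _ _ _ m2 hdm1 hd0, hh _ _ _ _ m3 hd0 hd1, hh _ _ _ _ m4 hd0 hdm1]
    have e : ∀ k, ((d (p k) + A * u k + c * d (u k) + B * v k + s * d (v k)) ^ 2
        + (d (p k) + A * u k + c * d (u k) + -B * v k + -s * d (v k)) ^ 2
        + (d (p k) + -A * u k + -c * d (u k) + B * v k + s * d (v k)) ^ 2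
        + (d (p k) + -A * u k + -c * d (u k) + -B * v k + -s * d (v k)) ^ 2
        + (d (p k) + B * u k + s * d (u k) + A * v k + c * d (v k)) ^ 2
        + (d (p k) + B * u k + s * d (u k) + -A * v k + -c * d (v k)) ^ 2
        + (d (p k) + -B * u k + -s * d (u k) + A * v k + c * d (v k)) ^ 2
        + (d (p k) + -B * u k + -s * d (u k) + -A * v k + -c * d (v k)) ^ 2)
        - 2 * ((d (p k) + 0 * u k + 1 * d (u k) + 0 * v k + 0 * d (v k)) ^ 2
          + (d (p k) + 0 * u k + -1 * d (u k) + 0 * v k + 0 * d (v k)) ^ 2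
          + (d (p k) + 0 * u k + 0 * d (u k) + 0 * v k + 1 * d (v k)) ^ 2
          + (d (p k) + 0 * u k + 0 * d (u k) + 0 * v k + -1 * d (v k)) ^ 2)
        = 4 * θ * (u k ^ 2 + v k ^ 2) + 8 * (c * A + s * B) * (d (u k) * u k + d (v k) * v k)
          + 4 * (c ^ 2 + s ^ 2 - 1) * (d (u k) ^ 2 + d (v k) ^ 2) := by
      intro k
      rw [hθ]
      ring
    simp only [Finset.mul_sum, ← Finset.sum_add_distrib, ← Finset.sum_sub_distrib]
    rw [Finset.sum_congr rfl fun k _ => e k, hAB, hcs]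
    simp only [zero_mul, add_zero, sub_self, mul_zero]
    rw [← Finset.mul_sum, Finset.sum_add_distrib, hu, hv]
    ring
  -- the colours
  obtain ⟨n0, hn0⟩ : ∃ n0 : ℤ, n0 = ⌊h (f (pt 1 0)) / θ⌋ := ⟨_, rfl⟩
  have hval : ∀ x ∈ twelve c s, ∃ (m : ℤ) (e : ℝ), 0 ≤ e ∧ e < 1 ∧
      h (f x) = ((n0 : ℝ) + 16 * (m : ℝ) + e) * θ := by
    intro x hx
    have h1 : ((⌊h (f x) / θ⌋ : ℤ) : ZMod 16) = ((n0 : ℤ) : ZMod 16) := by
      rw [hn0]
      exact (hk x hx).trans (hk _ m1).symm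
    obtain ⟨m, hm⟩ := (ZMod.intCast_eq_intCast_iff_dvd_sub _ _ 16).mp h1
    refine ⟨-m, h (f x) / θ - ⌊h (f x) / θ⌋, Int.fract_nonneg _, Int.fract_lt_one _, ?_⟩
    have h2 : (⌊h (f x) / θ⌋ : ℝ) = (n0 : ℝ) + 16 * ((-m : ℤ) : ℝ) := by
      have h3 : ⌊h (f x) / θ⌋ = n0 + 16 * (-m) := by
        push_cast at hm
        linarith
      rw [h3]
      push_cast
      ring
    rw [← h2]
    field_simp
    ring
  obtain ⟨z5, e5, a5, b5, h5⟩ := hval _ m5
  obtain ⟨z6, e6, a6, b6, h6⟩ := hval _ m6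
  obtain ⟨z7, e7, a7, b7, h7⟩ := hval _ m7
  obtain ⟨z8, e8, a8, b8, h8⟩ := hval _ m8
  obtain ⟨z9, e9, a9, b9, h9⟩ := hval _ m9
  obtain ⟨z10, e10, a10, b10, h10⟩ := hval _ m10
  obtain ⟨z11, e11, a11, b11, h11⟩ := hval _ m11
  obtain ⟨z12, e12, a12, b12, h12⟩ := hval _ m12
  obtain ⟨z1, e1, a1, b1, h1⟩ := hval _ m1
  obtain ⟨z2, e2, a2, b2, h2⟩ := hval _ m2
  obtain ⟨z3, e3, a3, b3, h3⟩ := hval _ m3
  obtain ⟨z4, e4, a4, b4, h4⟩ := hval _ m4
  rw [h5, h6, h7, h8, h9, h10, h11, h12, h1, h2, h3, h4] at hid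
  obtain ⟨K, hK⟩ : ∃ K : ℤ, K = z5 + z6 + z7 + z8 + z9 + z10 + z11 + z12 - 2 * (z1 + z2 + z3 + z4) :=
    ⟨_, rfl⟩
  have hKr : (K : ℝ) = (z5 : ℝ) + z6 + z7 + z8 + z9 + z10 + z11 + z12 - 2 * (z1 + z2 + z3 + z4) := by
    rw [hK]
    push_cast
    ring
  have hfin : 16 * (K : ℝ) + (e5 + e6 + e7 + e8 + e9 + e10 + e11 + e12 - 2 * (e1 + e2 + e3 + e4))
      = 8 := by
    have h13 : θ * (16 * (K : ℝ)
        + (e5 + e6 + e7 + e8 + e9 + e10 + e11 + e12 - 2 * (e1 + e2 + e3 + e4))) = θ * 8 := by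
      rw [hKr]
      linear_combination hid
    exact mul_left_cancel₀ hθ0.ne' h13
  have hK0 : (0 : ℝ) < K := by linarith
  have hK1 : (K : ℝ) < 1 := by linarith
  have hK0' : 0 < K := by exact_mod_cast hK0
  have hK1' : K < 1 := by exact_mod_cast hK1
  omega

/-- The twelve points form a finite set. -/
theorem twelve_finite (c s : ℝ) : (twelve c s).Finite := by
  simp [twelve]

/-- The twelve points lie on the unit circle. -/
theorem twelve_spherical {c s : ℝ} (hcs : c ^ 2 + s ^ 2 = 1) :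
    ∀ x ∈ twelve c s, dist x (pt 0 0) = 1 := by
  have key : ∀ a b : ℝ, a ^ 2 + b ^ 2 = 1 → dist (pt a b) (pt 0 0) = 1 := by
    intro a b hab
    have h1 := dist_pt_sq a b 0 0
    have h2 : dist (pt a b) (pt 0 0) ^ 2 = 1 := by
      rw [h1]
      linarith
    exact (pow_eq_one_iff_of_nonneg dist_nonneg (by norm_num)).mp h2
  intro x hx
  simp only [twelve, Set.mem_insert_iff, Set.mem_singleton_iff] at hx
  rcases hx with rfl | rfl | rfl | rfl | rfl | rfl | rfl | rfl | rfl | rfl | rfl | rfl <;>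
    apply key <;> nlinarith

/-- For every transcendental `c` with `|c| < 1` the twelve points of the unit circle
`(±1, 0), (0, ±1), (±c, ±s), (±s, ±c)`, with `s = √(1 - c²)`, do not form a Ramsey set. -/
theorem not_isRamsey_of_transcendental {c : ℝ} (hc : Transcendental ℚ c) (hc1 : c ^ 2 < 1) :
    ¬ IsRamsey (twelve c (Real.sqrt (1 - c ^ 2))) := by
  obtain ⟨d, hd⟩ := exists_derivation_ne hc
  refine not_isRamsey_twelve ?_ d hd
  rw [Real.sq_sqrt (by linarith)]
  ring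

end Vale.Agent.Lib.P058.NonRamsey.Fam12
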