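import Vale.Agent.Lib.P058.NonRamsey.CriterionG

/-! # P058: seven points of a circle with algebraically independent cosines are not Ramsey

The weights and the vector `τ` come from linear algebra on the functions
`1, cos, sin, cos 2t, sin 2t` of the seven points; the derivation is prescribed on the cosines. -/

namespace Vale.Agent.Lib.P058.NonRamsey.Gen7

open TensorProduct Finset

/-- A derivation of `ℝ` over `ℚ` may be prescribed on an algebraically independent family. -/
theorem exists_derivation_values {κ : Type} (c : κ → ℝ) (hc : AlgebraicIndependent ℚ c)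
    (v : κ → ℝ) : ∃ d : Derivation ℚ ℝ ℝ, ∀ i, d (c i) = v i := by
  classical
  have hind : AlgebraicIndepOn ℚ id (Set.range c) := hc.to_subtype_range
  obtain ⟨t, ht, hx⟩ := exists_isTranscendenceBasis_superset hind
  let ι := t
  let x : ι → ℝ := Subtype.val
  let A := MvPolynomial ι ℚ
  letI : Algebra A ℝ := (MvPolynomial.aeval x : A →ₐ[ℚ] ℝ).toRingHom.toAlgebra
  have hmap : ∀ a : A, algebraMap A ℝ a = MvPolynomial.aeval x a := fun _ => rfl
  haveI : IsScalarTower ℚ A ℝ := IsScalarTower.of_algebraMap_eq fun q => by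
    rw [hmap, MvPolynomial.algebraMap_eq, MvPolynomial.aeval_C]
  haveI : FaithfulSMul A ℝ := (faithfulSMul_iff_algebraMap_injective A ℝ).mpr hx.1
  letI : Algebra (FractionRing A) ℝ := FractionRing.liftAlgebra A ℝ
  haveI : IsScalarTower A (FractionRing A) ℝ := FractionRing.isScalarTower_liftAlgebra A ℝ
  haveI hiso := hx.isAlgebraic
  haveI halg : Algebra.IsAlgebraic A ℝ := by
    refine Algebra.IsAlgebraic.of_ringHom_of_comp_eq
      (S := Algebra.adjoin ℚ (Set.range x)) (B := ℝ)
      (hx.1.aevalEquiv : A →+* Algebra.adjoin ℚ (Set.range x)) (RingHom.id ℝ)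
      hx.1.aevalEquiv.surjective Function.injective_id ?_
    ext a
    · simp [hmap]
    · simp [hmap, x]
  haveI : Algebra.IsAlgebraic (FractionRing A) ℝ :=
    (IsFractionRing.comap_isAlgebraic_iff (A := A) (K := FractionRing A) (C := ℝ)).mp halg
  haveI : CharZero (FractionRing A) := algebraRat.charZero _
  haveI : Algebra.IsSeparable (FractionRing A) ℝ := Algebra.IsAlgebraic.isSeparable_of_perfectField
  haveI : Algebra.FormallyEtale (FractionRing A) ℝ := Algebra.FormallyEtale.of_isSeparable _ _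
  haveI : Algebra.FormallyEtale A (FractionRing A) :=
    Algebra.FormallyEtale.of_isLocalization (nonZeroDivisors A)
  haveI : Algebra.FormallyEtale A ℝ := Algebra.FormallyEtale.comp A (FractionRing A) ℝ
  let b := KaehlerDifferential.mvPolynomialBasis ℚ ι
  let E := KaehlerDifferential.tensorKaehlerEquivOfFormallyEtale ℚ A ℝ
  let B := (b.baseChange ℝ).map E
  have hB : ∀ i : ι, B i = KaehlerDifferential.D ℚ ℝ (x i) := by
    intro i
    have h1 := KaehlerDifferential.tensorKaehlerEquivOfFormallyEtale_symm_D_algebraMap ℚ A ℝ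
      (MvPolynomial.X i)
    have h2 : algebraMap A ℝ (MvPolynomial.X i) = x i := by
      rw [hmap, MvPolynomial.aeval_X]
    rw [h2] at h1
    have h3 : KaehlerDifferential.D ℚ A (MvPolynomial.X i) = b i := by
      apply b.repr.injective
      rw [KaehlerDifferential.mvPolynomialBasis_repr_D_X]
      simp [b]
    have h4 : B i = E ((1 : ℝ) ⊗ₜ[A] b i) := by
      simp only [B, Module.Basis.map_apply, Module.Basis.baseChange_apply]
      rfl
    rw [h4, ← h3, ← h1]
    exact E.apply_symm_apply _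
  let v' : ι → ℝ := fun y => if h : ∃ i, c i = y.1 then v h.choose else 0
  have hv' : ∀ i (hi : c i ∈ t), v' ⟨c i, hi⟩ = v i := by
    intro i hi
    have h : ∃ j, c j = c i := ⟨i, rfl⟩
    simp only [v', dif_pos h]
    congr 1
    exact hc.injective h.choose_spec
  let l : Module.Dual ℝ (Ω[ℝ⁄ℚ]) := B.constr ℝ v'
  refine ⟨l.compDer (KaehlerDifferential.D ℚ ℝ), fun i => ?_⟩
  have hi : c i ∈ t := ht ⟨i, rfl⟩
  have e := hB ⟨c i, hi⟩
  have e2 : l (B ⟨c i, hi⟩) = v' ⟨c i, hi⟩ := B.constr_basis ℝ v' _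
  rw [hv' i hi, e] at e2
  simpa using e2

/-- A function of the form `α₀ + α₁ c + α₂ s + α₃ (c² - s²) + α₄ c s` vanishing at five distinct
points of the circle is zero. -/
theorem trig_zero (c s : Fin 5 → ℝ) (hcs : ∀ j, c j ^ 2 + s j ^ 2 = 1)
    (hinj : Function.Injective c) (α : Fin 5 → ℝ)
    (h : ∀ j, α 0 + α 1 * c j + α 2 * s j + α 3 * (c j ^ 2 - s j ^ 2) + α 4 * (c j * s j) = 0) :
    α = 0 := by
  have hI : Complex.I * Complex.I + 1 = 0 := by
    rw [Complex.I_mul_I]
    ring
  set I := Complex.I with hIdef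
  let z : Fin 5 → ℂ := fun j => (c j : ℂ) + (s j : ℂ) * I
  have hz : Function.Injective z := by
    intro a b hab
    apply hinj
    have := congrArg Complex.re hab
    simpa [z, hIdef] using this
  let A : Fin 5 → ℂ := ![(α 3 : ℂ) / 2 + (α 4 : ℂ) * I / 4, (α 1 : ℂ) / 2 + (α 2 : ℂ) * I / 2,
    (α 0 : ℂ), (α 1 : ℂ) / 2 - (α 2 : ℂ) * I / 2, (α 3 : ℂ) / 2 - (α 4 : ℂ) * I / 4]
  have hA : (Matrix.vandermonde z).mulVec A = 0 := by
    funext j
    simp only [Matrix.mulVec, dotProduct, Matrix.vandermonde_apply, Fin.sum_univ_five, Pi.zero_apply]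
    have hc : (c j : ℂ) ^ 2 + (s j : ℂ) ^ 2 = 1 := by exact_mod_cast hcs j
    have hv : (α 0 : ℂ) + (α 1 : ℂ) * (c j : ℂ) + (α 2 : ℂ) * (s j : ℂ) +
        (α 3 : ℂ) * ((c j : ℂ) ^ 2 - (s j : ℂ) ^ 2) + (α 4 : ℂ) * ((c j : ℂ) * (s j : ℂ)) = 0 := by
      exact_mod_cast h j
    set C : ℂ := (c j : ℂ) with hC
    set S : ℂ := (s j : ℂ) with hS
    set a0 : ℂ := (α 0 : ℂ)
    set a1 : ℂ := (α 1 : ℂ)
    set a2 : ℂ := (α 2 : ℂ)
    set a3 : ℂ := (α 3 : ℂ)
    set a4 : ℂ := (α 4 : ℂ)
    have hzj : z j = C + S * I := rfl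
    have hZ : (C + S * I) * (C - S * I) = 1 := by
      linear_combination hc - S ^ 2 * hI
    have e1 : (a1 / 2 - a2 * I / 2) * (C + S * I) + (a1 / 2 + a2 * I / 2) * (C - S * I)
        = a1 * C + a2 * S := by
      linear_combination (-a2 * S) * hI
    have e2 : (a3 / 2 - a4 * I / 4) * (C + S * I) ^ 2 + (a3 / 2 + a4 * I / 4) * (C - S * I) ^ 2
        = a3 * (C ^ 2 - S ^ 2) + a4 * (C * S) := by
      linear_combination (a3 * S ^ 2 - a4 * C * S) * hI
    have hA0 : A 0 = a3 / 2 + a4 * I / 4 := rfl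
    have hA1 : A 1 = a1 / 2 + a2 * I / 2 := rfl
    have hA2 : A 2 = a0 := rfl
    have hA3 : A 3 = a1 / 2 - a2 * I / 2 := rfl
    have hA4 : A 4 = a3 / 2 - a4 * I / 4 := rfl
    rw [hA0, hA1, hA2, hA3, hA4, hzj]
    simp only [Fin.val_zero, Fin.val_one, Fin.val_two, pow_zero, pow_one, one_mul]
    have v3 : ((3 : Fin 5) : ℕ) = 3 := rfl
    have v4 : ((4 : Fin 5) : ℕ) = 4 := rfl
    rw [v3, v4]
    set Z := C + S * I with hZdef
    set Zb := C - S * I with hZbdef
    have hfin : a0 * Z ^ 2 + (a1 / 2 - a2 * I / 2) * Z ^ 3 + (a3 / 2 - a4 * I / 4) * Z ^ 4 +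
        (a1 / 2 + a2 * I / 2) * Z + (a3 / 2 + a4 * I / 4) =
        Z ^ 2 * (a0 + ((a1 / 2 - a2 * I / 2) * Z + (a1 / 2 + a2 * I / 2) * Zb) +
          ((a3 / 2 - a4 * I / 4) * Z ^ 2 + (a3 / 2 + a4 * I / 4) * Zb ^ 2)) := by
      linear_combination (-(a3 / 2 + a4 * I / 4) * (Z * Zb + 1) - (a1 / 2 + a2 * I / 2) * Z) * hZ
    rw [e1, e2] at hfin
    have hv' : a0 + (a1 * C + a2 * S) + (a3 * (C ^ 2 - S ^ 2) + a4 * (C * S)) = 0 := by
      linear_combination hv
    rw [hv', mul_zero] at hfin
    linear_combination hfin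
  have hdet : (Matrix.vandermonde z).det ≠ 0 := Matrix.det_vandermonde_ne_zero_iff.mpr hz
  have hA0 : A = 0 := Matrix.eq_zero_of_mulVec_eq_zero hdet hA
  have h0 : A 0 = 0 := by rw [hA0]; rfl
  have h1 : A 1 = 0 := by rw [hA0]; rfl
  have h2 : A 2 = 0 := by rw [hA0]; rfl
  have r0 := congrArg Complex.re h0
  have i0 := congrArg Complex.im h0
  have r1 := congrArg Complex.re h1
  have i1 := congrArg Complex.im h1
  have r2 := congrArg Complex.re h2
  simp [A, hIdef] at r0 i0 r1 i1 r2
  funext k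
  fin_cases k
  · simpa using r2
  · simpa using r1
  · simpa using i1
  · simpa using r0
  · simpa using i0

/-- The five conditions on a weight. -/
def IsW {ι : Type} [Fintype ι] (c s w : ι → ℝ) : Prop :=
  ∑ i, w i = 0 ∧ ∑ i, w i * c i = 0 ∧ ∑ i, w i * s i = 0 ∧
    ∑ i, w i * (c i ^ 2 - s i ^ 2) = 0 ∧ ∑ i, w i * (c i * s i) = 0

/-- Six distinct points of the circle carry a weight with full support. -/
theorem exists_weights6 (c s : Fin 6 → ℝ) (hcs : ∀ j, c j ^ 2 + s j ^ 2 = 1)
    (hinj : Function.Injective c) : ∃ w : Fin 6 → ℝ, (∀ i, w i ≠ 0) ∧ IsW c s w := by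
  classical
  let f : Fin 5 → Fin 6 → ℝ := ![fun _ => 1, c, s, fun i => c i ^ 2 - s i ^ 2, fun i => c i * s i]
  let L : (Fin 6 → ℝ) →ₗ[ℝ] (Fin 5 → ℝ) := (Matrix.of fun k i => f k i).mulVecLin
  have hker : LinearMap.ker L ≠ ⊥ := LinearMap.ker_ne_bot_of_finrank_lt (by simp)
  obtain ⟨w, hw, hw0⟩ := Submodule.exists_mem_ne_zero_of_ne_bot hker
  have hLw : ∀ k, ∑ i, f k i * w i = 0 := by
    intro k
    have := congrFun (LinearMap.mem_ker.mp hw) k
    simpa [L, Matrix.mulVec, dotProduct] using this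
  refine ⟨w, ?_, ?_⟩
  · intro i₀ hi₀
    -- restrict to five points
    let g : Fin 5 → Fin 6 := i₀.succAbove
    let M : Matrix (Fin 5) (Fin 5) ℝ := Matrix.of fun k j => f k (g j)
    have hM : M.mulVec (w ∘ g) = 0 := by
      funext k
      have h1 := hLw k
      rw [Fin.sum_univ_succAbove _ i₀, hi₀, mul_zero, zero_add] at h1
      simpa [M, g, Matrix.mulVec, dotProduct] using h1
    have hne : w ∘ g ≠ 0 := by
      intro h0
      apply hw0
      funext i
      rcases Fin.eq_self_or_eq_succAbove i₀ i with rfl | ⟨j, rfl⟩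
      · exact hi₀
      · exact congrFun h0 j
    have hdet : M.det = 0 := Matrix.exists_mulVec_eq_zero_iff.mp ⟨_, hne, hM⟩
    obtain ⟨α, hα, hαM⟩ := Matrix.exists_vecMul_eq_zero_iff.mpr hdet
    apply hα
    refine trig_zero (c ∘ g) (s ∘ g) (fun j => hcs _) (hinj.comp (Fin.succAbove_right_injective))
      α ?_
    intro j
    have := congrFun hαM j
    simp only [Matrix.vecMul, dotProduct, Fin.sum_univ_five, M, Matrix.of_apply, Pi.zero_apply] at this
    simp only [f, Function.comp] at this ⊢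
    simpa using this
  · refine ⟨?_, ?_, ?_, ?_, ?_⟩
    · simpa [f] using hLw 0
    · have := hLw 1
      simpa [f, mul_comm] using this
    · have := hLw 2
      simpa [f, mul_comm] using this
    · have := hLw 3
      simpa [f, mul_comm] using this
    · have := hLw 4
      simpa [f, mul_comm] using this

/-- Weight on seven points vanishing exactly at one point. -/
theorem exists_weights_omit (c s : Fin 7 → ℝ) (hcs : ∀ j, c j ^ 2 + s j ^ 2 = 1)
    (hinj : Function.Injective c) (p : Fin 7) :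
    ∃ w : Fin 7 → ℝ, w p = 0 ∧ (∀ i, i ≠ p → w i ≠ 0) ∧ IsW c s w := by
  classical
  obtain ⟨w, hw, h1, h2, h3, h4, h5⟩ := exists_weights6 (c ∘ p.succAbove) (s ∘ p.succAbove)
    (fun j => hcs _) (hinj.comp Fin.succAbove_right_injective)
  refine ⟨p.insertNth 0 w, by simp, ?_, ?_, ?_, ?_, ?_, ?_⟩
  · intro i hi
    rcases Fin.eq_self_or_eq_succAbove p i with rfl | ⟨j, rfl⟩
    · exact absurd rfl hi
    · simpa using hw j
  · rw [Fin.sum_univ_succAbove _ p]
    simpa using h1
  · rw [Fin.sum_univ_succAbove _ p]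
    simpa using h2
  · rw [Fin.sum_univ_succAbove _ p]
    simpa using h3
  · rw [Fin.sum_univ_succAbove _ p]
    simpa using h4
  · rw [Fin.sum_univ_succAbove _ p]
    simpa using h5

/-- Seven distinct points of the circle carry a weight with full support. -/
theorem exists_weights7 (c s : Fin 7 → ℝ) (hcs : ∀ j, c j ^ 2 + s j ^ 2 = 1)
    (hinj : Function.Injective c) : ∃ w : Fin 7 → ℝ, (∀ i, w i ≠ 0) ∧ IsW c s w := by
  classical
  obtain ⟨u, hu0, hu, a1, a2, a3, a4, a5⟩ := exists_weights_omit c s hcs hinj 0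
  obtain ⟨v, hv0, hv, b1, b2, b3, b4, b5⟩ := exists_weights_omit c s hcs hinj 1
  let bad : Finset ℝ := univ.image fun i : Fin 7 => -u i / v i
  obtain ⟨l, hl⟩ := Infinite.exists_notMem_finset bad
  refine ⟨fun i => u i + l * v i, ?_, ?_, ?_, ?_, ?_, ?_⟩
  · intro i h0
    by_cases hi : i = 1
    · subst hi
      have h0' : u 1 + l * v 1 = 0 := h0
      rw [hv0, mul_zero, add_zero] at h0'
      exact hu 1 (by decide) h0'
    · have hvi := hv i hi
      have h0' : u i + l * v i = 0 := h0
      apply hl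
      refine Finset.mem_image.mpr ⟨i, mem_univ _, ?_⟩
      show -u i / v i = l
      rw [div_eq_iff hvi]
      linarith
  · simp only [add_mul, Finset.sum_add_distrib, ← Finset.mul_sum]
    rw [a1, b1, mul_zero, add_zero]
  · simp only [add_mul, Finset.sum_add_distrib, mul_assoc, ← Finset.mul_sum]
    rw [a2, b2, mul_zero, add_zero]
  · simp only [add_mul, Finset.sum_add_distrib, mul_assoc, ← Finset.mul_sum]
    rw [a3, b3, mul_zero, add_zero]
  · simp only [add_mul, Finset.sum_add_distrib, mul_assoc, ← Finset.mul_sum]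
    rw [a4, b4, mul_zero, add_zero]
  · simp only [add_mul, Finset.sum_add_distrib, mul_assoc, ← Finset.mul_sum]
    rw [a5, b5, mul_zero, add_zero]

/-- The vector `τ`. -/
theorem exists_tau (w c s : Fin 7 → ℝ) (hw : ∀ i, w i ≠ 0) :
    ∃ τ : Fin 7 → ℝ, ∑ i, w i * τ i = 0 ∧ ∑ i, w i * (τ i * c i) = 0 ∧ ∑ i, w i * (τ i * s i) = 0 ∧
      ∑ i, w i * τ i ^ 2 ≠ 0 := by
  classical
  by_contra hcon
  push Not at hcon
  -- the three functionals
  let φ : Fin 3 → Module.Dual ℝ (Fin 7 → ℝ) := ![
    ∑ i, (w i) • LinearMap.proj i,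
    ∑ i, (w i * c i) • LinearMap.proj i,
    ∑ i, (w i * s i) • LinearMap.proj i]
  have hφ0 : ∀ τ : Fin 7 → ℝ, φ 0 τ = ∑ i, w i * τ i := by
    intro τ
    simp [φ, LinearMap.sum_apply]
  have hφ1 : ∀ τ : Fin 7 → ℝ, φ 1 τ = ∑ i, w i * (τ i * c i) := by
    intro τ
    simp [φ, LinearMap.sum_apply]
    exact Finset.sum_congr rfl fun i _ => by ring
  have hφ2 : ∀ τ : Fin 7 → ℝ, φ 2 τ = ∑ i, w i * (τ i * s i) := by
    intro τ
    simp [φ, LinearMap.sum_apply]
    exact Finset.sum_congr rfl fun i _ => by ring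
  let Φ : (Fin 7 → ℝ) →ₗ[ℝ] (Fin 3 → ℝ) := LinearMap.pi φ
  let W := LinearMap.ker Φ
  have hmem : ∀ τ, τ ∈ W ↔ (∑ i, w i * τ i = 0 ∧ ∑ i, w i * (τ i * c i) = 0 ∧
      ∑ i, w i * (τ i * s i) = 0) := by
    intro τ
    rw [LinearMap.mem_ker]
    constructor
    · intro h
      refine ⟨?_, ?_, ?_⟩
      · rw [← hφ0]; exact congrFun h 0
      · rw [← hφ1]; exact congrFun h 1
      · rw [← hφ2]; exact congrFun h 2
    · rintro ⟨h0, h1, h2⟩
      funext k
      fin_cases k
      · simpa [Φ, hφ0] using h0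
      · simpa [Φ, hφ1] using h1
      · simpa [Φ, hφ2] using h2
  have hQ : ∀ τ ∈ W, ∑ i, w i * τ i ^ 2 = 0 := by
    intro τ hτ
    obtain ⟨h0, h1, h2⟩ := (hmem τ).mp hτ
    exact hcon τ h0 h1 h2
  have hB : ∀ τ ∈ W, ∀ τ' ∈ W, ∑ i, w i * (τ i * τ' i) = 0 := by
    intro τ hτ τ' hτ'
    have h1 := hQ (τ + τ') (W.add_mem hτ hτ')
    have h2 := hQ τ hτ
    have h3 := hQ τ' hτ'
    have e : ∑ i, w i * (τ + τ') i ^ 2 = ∑ i, w i * τ i ^ 2 + ∑ i, w i * τ' i ^ 2 +
        2 * ∑ i, w i * (τ i * τ' i) := by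
      rw [Finset.mul_sum, ← Finset.sum_add_distrib, ← Finset.sum_add_distrib]
      exact Finset.sum_congr rfl fun i _ => by simp only [Pi.add_apply]; ring
    rw [e, h2, h3] at h1
    linarith
  -- every element of `W` is an affine function of `c`, `s`
  let Ψ : (Fin 3 → ℝ) →ₗ[ℝ] (Fin 7 → ℝ) :=
    { toFun := fun β i => β 0 + β 1 * c i + β 2 * s i
      map_add' := fun β γ => by
        funext i
        simp only [Pi.add_apply]
        ring
      map_smul' := fun r β => by
        funext i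
        simp only [Pi.smul_apply, smul_eq_mul, RingHom.id_apply]
        ring }
  have hWle : W ≤ LinearMap.range Ψ := by
    intro τ hτ
    let ℓ : Module.Dual ℝ (Fin 7 → ℝ) := ∑ i, (w i * τ i) • LinearMap.proj i
    have hℓ : ∀ σ : Fin 7 → ℝ, ℓ σ = ∑ i, w i * (τ i * σ i) := by
      intro σ
      simp [ℓ, LinearMap.sum_apply]
      exact Finset.sum_congr rfl fun i _ => by ring
    have hker : (⨅ k, LinearMap.ker (φ k)) ≤ LinearMap.ker ℓ := by
      intro σ hσ
      rw [LinearMap.mem_ker, hℓ]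
      apply hB τ hτ σ
      rw [LinearMap.mem_ker]
      funext k
      exact LinearMap.mem_ker.mp (Submodule.mem_iInf _ |>.mp hσ k)
    have hspan := mem_span_of_iInf_ker_le_ker hker
    obtain ⟨β, hβ⟩ := (Submodule.mem_span_range_iff_exists_fun ℝ).mp hspan
    refine ⟨β, ?_⟩
    funext i
    have h1 := LinearMap.congr_fun hβ (Pi.single i 1)
    rw [hℓ] at h1
    simp only [Fin.sum_univ_three, LinearMap.add_apply, LinearMap.smul_apply, smul_eq_mul, hφ0, hφ1,
      hφ2] at h1
    have s1 : ∀ g : Fin 7 → ℝ, ∑ j, g j * (Pi.single i (1 : ℝ) : Fin 7 → ℝ) j = g i := by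
      intro g
      simp [Pi.single_apply]
    have e1 : ∑ j, w j * (τ j * (Pi.single i (1 : ℝ) : Fin 7 → ℝ) j) = w i * τ i := by
      have := s1 (fun j => w j * τ j)
      simpa [mul_assoc] using this
    have e2 : ∑ j, w j * (Pi.single i (1 : ℝ) : Fin 7 → ℝ) j = w i := s1 w
    have e3 : ∑ j, w j * ((Pi.single i (1 : ℝ) : Fin 7 → ℝ) j * c j) = w i * c i := by
      have := s1 (fun j => w j * c j)
      simpa [mul_assoc, mul_comm, mul_left_comm] using this
    have e4 : ∑ j, w j * ((Pi.single i (1 : ℝ) : Fin 7 → ℝ) j * s j) = w i * s i := by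
      have := s1 (fun j => w j * s j)
      simpa [mul_assoc, mul_comm, mul_left_comm] using this
    rw [e1, e2, e3, e4] at h1
    have hwi := hw i
    show β 0 + β 1 * c i + β 2 * s i = τ i
    apply mul_left_cancel₀ hwi
    linarith
  have h1 : Module.finrank ℝ W ≤ 3 := by
    calc Module.finrank ℝ W ≤ Module.finrank ℝ (LinearMap.range Ψ) := Submodule.finrank_mono hWle
      _ ≤ Module.finrank ℝ (Fin 3 → ℝ) := LinearMap.finrank_range_le Ψ
      _ = 3 := by simp
  have h2 := LinearMap.finrank_range_add_finrank_ker Φ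
  have h3 : Module.finrank ℝ (LinearMap.range Φ) ≤ 3 := by
    calc Module.finrank ℝ (LinearMap.range Φ) ≤ Module.finrank ℝ (Fin 3 → ℝ) :=
          Submodule.finrank_le _
      _ = 3 := by simp
  have h4 : Module.finrank ℝ (Fin 7 → ℝ) = 7 := by simp
  have h5 : Module.finrank ℝ W = Module.finrank ℝ (LinearMap.ker Φ) := rfl
  omega

/-- The point of the plane. -/
noncomputable def pt (a b : ℝ) : EuclideanSpace ℝ (Fin 2) := !₂[a, b]

/-- Seven points of the unit circle whose first coordinates are algebraically independent over `ℚ`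
do not form a Ramsey set. -/
theorem not_isRamsey_generic7 (c s : Fin 7 → ℝ) (hcs : ∀ i, c i ^ 2 + s i ^ 2 = 1)
    (hc : AlgebraicIndependent ℚ c) : ¬ IsRamsey (Set.range fun i => pt (c i) (s i)) := by
  classical
  have hinj : Function.Injective c := hc.injective
  obtain ⟨w, hw, h1, h2, h3, h4, h5⟩ := exists_weights7 c s hcs hinj
  obtain ⟨τ, t0, t1, t2, t3⟩ := exists_tau w c s hw
  obtain ⟨d, hd⟩ := exists_derivation_values c hc (fun i => -(s i * τ i))
  have hs : ∀ i, s i ≠ 0 := by
    intro i hi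
    have h0 : c i ^ 2 = 1 := by
      have := hcs i
      rw [hi] at this
      linarith
    have ht : Transcendental ℚ (c i) := hc.transcendental i
    apply ht
    have h00 : c i = 1 ∨ c i = -1 := by
      have e : (c i - 1) * (c i + 1) = 0 := by linarith [h0, sq (c i)]
      rcases mul_eq_zero.mp e with h | h
      · left; linarith
      · right; linarith
    rcases h00 with h00 | h00
    · rw [h00]
      exact isAlgebraic_one
    · rw [h00]
      exact isAlgebraic_one.neg
  have hds : ∀ i, d (s i) = c i * τ i := by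
    intro i
    have e1 : d (c i * c i + s i * s i) = 0 := by
      have : c i * c i + s i * s i = 1 := by
        have := hcs i
        nlinarith
      rw [this, Derivation.map_one_eq_zero]
    rw [map_add, Derivation.leibniz, Derivation.leibniz, hd] at e1
    simp only [smul_eq_mul] at e1
    have e2 : s i * (d (s i) - c i * τ i) = 0 := by linarith
    have := mul_eq_zero.mp e2
    rcases this with h | h
    · exact absurd h (hs i)
    · linarith
  have hc2 : ∑ i, w i * c i ^ 2 = 0 := by
    have e : ∀ i, w i * c i ^ 2 = (1 / 2) * (w i + w i * (c i ^ 2 - s i ^ 2)) := by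
      intro i
      have := hcs i
      have e' : c i ^ 2 = (1 + (c i ^ 2 - s i ^ 2)) / 2 := by linarith
      nth_rewrite 1 [e']
      ring
    simp only [e]
    rw [← Finset.mul_sum, Finset.sum_add_distrib, h1, h4]
    simp
  have hs2 : ∑ i, w i * s i ^ 2 = 0 := by
    have e : ∀ i, w i * s i ^ 2 = (1 / 2) * (w i - w i * (c i ^ 2 - s i ^ 2)) := by
      intro i
      have := hcs i
      have e' : s i ^ 2 = (1 - (c i ^ 2 - s i ^ 2)) / 2 := by linarith
      nth_rewrite 1 [e']
      ring
    simp only [e]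
    rw [← Finset.mul_sum, Finset.sum_sub_distrib, h1, h4]
    simp
  let a : Fin 7 → EuclideanSpace ℝ (Fin 2) := fun i => pt (c i) (s i)
  have ha0 : ∀ i, a i 0 = c i := fun i => by simp [a, pt]
  have ha1 : ∀ i, a i 1 = s i := fun i => by simp [a, pt]
  have hspan : Submodule.span ℝ (Set.range fun i => a i - a 0) = ⊤ := by
    by_contra hne
    obtain ⟨f, hf0, hf⟩ := Submodule.exists_le_ker_of_lt_top _ (lt_top_iff_ne_top.mpr hne)
    have hexp : ∀ x y : ℝ, f (pt x y) = x * f (pt 1 0) + y * f (pt 0 1) := by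
      intro x y
      have : pt x y = x • pt 1 0 + y • pt 0 1 := by
        ext k
        fin_cases k <;> simp [pt]
      rw [this, map_add, map_smul, map_smul, smul_eq_mul, smul_eq_mul]
    set P := f (pt 1 0) with hP
    set Q := f (pt 0 1) with hQ
    have hi : ∀ i, P * (c i - c 0) + Q * (s i - s 0) = 0 := by
      intro i
      have hmem : a i - a 0 ∈ Submodule.span ℝ (Set.range fun i => a i - a 0) :=
        Submodule.subset_span ⟨i, rfl⟩
      have := LinearMap.mem_ker.mp (hf hmem)
      rw [map_sub] at this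
      simp only [a, hexp] at this
      linarith
    let g : Fin 5 → Fin 7 := Fin.castLE (by norm_num)
    have hz := trig_zero (c ∘ g) (s ∘ g) (fun j => hcs _)
      (hinj.comp (Fin.castLE_injective _)) ![-(P * c 0 + Q * s 0), P, Q, 0, 0] (by
        intro j
        have := hi (g j)
        simp only [Function.comp, Matrix.cons_val_zero, Matrix.cons_val_one, Matrix.cons_val]
        linarith)
    have hP0 : P = 0 := by
      have := congrFun hz 1
      simpa using this
    have hQ0 : Q = 0 := by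
      have := congrFun hz 2
      simpa using this
    apply hf0
    ext v
    have : v = pt (v 0) (v 1) := by
      ext k
      fin_cases k <;> simp [pt]
    rw [this, hexp, hP0, hQ0]
    simp
  refine not_isRamsey_of_derivation a 0 hspan d w h1 ?_ ?_ ?_ ?_ ?_
  · intro j
    fin_cases j
    · simpa [ha0] using h2
    · simpa [ha1] using h3
  · intro j k
    fin_cases j <;> fin_cases k
    · simpa [ha0, sq] using hc2
    · simpa [ha0, ha1] using h5
    · simpa [ha0, ha1, mul_comm] using h5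
    · simpa [ha1, sq] using hs2
  · intro j
    fin_cases j
    · simp only [Fin.zero_eta, ha0, hd]
      have : ∑ i, w i * -(s i * τ i) = -∑ i, w i * (τ i * s i) := by
        rw [← Finset.sum_neg_distrib]
        exact Finset.sum_congr rfl fun i _ => by ring
      rw [this, t2, neg_zero]
    · simp only [Fin.mk_one, ha1, hds]
      have : ∑ i, w i * (c i * τ i) = ∑ i, w i * (τ i * c i) :=
        Finset.sum_congr rfl fun i _ => by ring
      rw [this, t1]
  · intro j k
    fin_cases j <;> fin_cases k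
    · rfl
    · simp only [Fin.zero_eta, Fin.mk_one, ha0, ha1, hd, hds]
      have e : ∑ i, w i * (c i * τ i * c i) - ∑ i, w i * (-(s i * τ i) * s i) = ∑ i, w i * τ i := by
        rw [← Finset.sum_sub_distrib]
        refine Finset.sum_congr rfl fun i _ => ?_
        have := hcs i
        have e' : c i * τ i * c i - (-(s i * τ i) * s i) = τ i * (c i ^ 2 + s i ^ 2) := by ring
        rw [← mul_sub, e', this, mul_one]
      rw [t0] at e
      linarith
    · simp only [Fin.zero_eta, Fin.mk_one, ha0, ha1, hd, hds]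
      have e : ∑ i, w i * (c i * τ i * c i) - ∑ i, w i * (-(s i * τ i) * s i) = ∑ i, w i * τ i := by
        rw [← Finset.sum_sub_distrib]
        refine Finset.sum_congr rfl fun i _ => ?_
        have := hcs i
        have e' : c i * τ i * c i - (-(s i * τ i) * s i) = τ i * (c i ^ 2 + s i ^ 2) := by ring
        rw [← mul_sub, e', this, mul_one]
      rw [t0] at e
      linarith
    · rfl
  · have e : ∀ i, ∑ j, (d (a i j)) ^ 2 = τ i ^ 2 := by
      intro i
      rw [Fin.sum_univ_two, ha0, ha1, hd, hds]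
      have := hcs i
      have e' : (-(s i * τ i)) ^ 2 + (c i * τ i) ^ 2 = τ i ^ 2 * (c i ^ 2 + s i ^ 2) := by ring
      rw [e', this, mul_one]
    simp only [e]
    exact t3

end Vale.Agent.Lib.P058.NonRamsey.Gen7
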