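import Vale.Agent.Lib.P058.NonRamsey.CriterionG
import Vale.Agent.Lib.P058.NonRamsey.Deriv

/-! # P058: an eight point spherical set which is not Ramsey

The set `{(±1,0), (0,±1), (±c,±s)}` on the unit circle, with `c² + s² = 1` and `d c ≠ 0` for some
derivation `d` of `ℝ` over `ℚ`. Weights `-2c²` on `(±1,0)`, `-2s²` on `(0,±1)`, `1` on `(±c,±s)`. -/

namespace Vale.Agent.Lib.P058.NonRamsey

/-- The first coordinates. -/
noncomputable def octX (c : ℝ) : Fin 8 → ℝ := ![1, -1, 0, 0, c, c, -c, -c]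

/-- The second coordinates. -/
noncomputable def octY (s : ℝ) : Fin 8 → ℝ := ![0, 0, 1, -1, s, -s, s, -s]

/-- The points. -/
noncomputable def octPt (c s : ℝ) (i : Fin 8) : EuclideanSpace ℝ (Fin 2) :=
  WithLp.toLp 2 ![octX c i, octY s i]

/-- The eight point set. -/
noncomputable def octagon (c s : ℝ) : Set (EuclideanSpace ℝ (Fin 2)) := Set.range (octPt c s)

/-- The weights. -/
noncomputable def octW (c s : ℝ) : Fin 8 → ℝ :=
  ![-2 * c ^ 2, -2 * c ^ 2, -2 * s ^ 2, -2 * s ^ 2, 1, 1, 1, 1]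

theorem octagon_span (c s : ℝ) :
    Submodule.span ℝ (Set.range fun i => octPt c s i - octPt c s 0) = ⊤ := by
  rw [Submodule.eq_top_iff']
  intro x
  have hv1 : (octPt c s 1 - octPt c s 0) ∈
      Submodule.span ℝ (Set.range fun i => octPt c s i - octPt c s 0) :=
    Submodule.subset_span ⟨1, rfl⟩
  have hv2 : (octPt c s 2 - octPt c s 0) ∈
      Submodule.span ℝ (Set.range fun i => octPt c s i - octPt c s 0) :=
    Submodule.subset_span ⟨2, rfl⟩
  have hx : x = (-(x 0 + x 1) / 2) • (octPt c s 1 - octPt c s 0) +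
      (x 1) • (octPt c s 2 - octPt c s 0) := by
    ext j
    fin_cases j
    · simp [octPt, octX, octY]
      ring
    · simp [octPt, octX, octY]
  rw [hx]
  exact Submodule.add_mem _ (Submodule.smul_mem _ _ hv1) (Submodule.smul_mem _ _ hv2)

/-- **The eight point set is not Ramsey.** -/
theorem not_isRamsey_octagon (c s : ℝ) (hcs : c ^ 2 + s ^ 2 = 1) (d : Derivation ℚ ℝ ℝ)
    (hd : d c ≠ 0) : ¬ IsRamsey (octagon c s) := by
  have hrel : c * d c + s * d s = 0 := by
    have h0 := congrArg d hcs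
    rw [map_add, sq, sq, Derivation.leibniz, Derivation.leibniz, Derivation.map_one_eq_zero] at h0
    simp only [smul_eq_mul] at h0
    linarith
  have hone : d 1 = 0 := Derivation.map_one_eq_zero d
  refine not_isRamsey_of_derivation (octPt c s) 0 (octagon_span c s) d (octW c s) ?_ ?_ ?_ ?_ ?_ ?_
  · simp [octW, Fin.sum_univ_eight]
    linarith
  · intro j
    fin_cases j <;> simp [octPt, octX, octY, octW, Fin.sum_univ_eight] <;> ring
  · intro j k
    fin_cases j <;> fin_cases k <;> simp [octPt, octX, octY, octW, Fin.sum_univ_eight] <;> nlinarith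
  · intro j
    fin_cases j <;> simp [octPt, octX, octY, octW, Fin.sum_univ_eight, hone] <;> ring
  · intro j k
    fin_cases j <;> fin_cases k <;> simp [octPt, octX, octY, octW, Fin.sum_univ_eight, hone]
  · have hval : ∑ i, octW c s i * ∑ j, (d (octPt c s i j)) ^ 2 = 4 * ((d c) ^ 2 + (d s) ^ 2) := by
      simp [octPt, octX, octY, octW, Fin.sum_univ_eight, Fin.sum_univ_two, hone]
      ring
    rw [hval]
    have : 0 < (d c) ^ 2 := by positivity
    nlinarith [sq_nonneg (d s)]

/-- The points lie on the unit circle. -/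
theorem octagon_norm (c s : ℝ) (hcs : c ^ 2 + s ^ 2 = 1) : ∀ x ∈ octagon c s, ‖x‖ = 1 := by
  rintro _ ⟨i, rfl⟩
  have h : ‖octPt c s i‖ ^ 2 = 1 := by
    rw [EuclideanSpace.norm_sq_eq, Fin.sum_univ_two]
    fin_cases i <;> simp [octPt, octX, octY] <;> linarith
  have h0 : 0 ≤ ‖octPt c s i‖ := norm_nonneg _
  nlinarith

/-- Such numbers exist: a rational parametrization of the circle. -/
theorem exists_octagon_data : ∃ (c s : ℝ) (d : Derivation ℚ ℝ ℝ), c ^ 2 + s ^ 2 = 1 ∧ d c ≠ 0 := by
  obtain ⟨d, x, hx⟩ := exists_derivation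
  have hx0 : x ≠ 0 := by
    rintro rfl
    simp at hx
  have hpos : (1 + x ^ 2) ≠ 0 := by positivity
  refine ⟨(1 - x ^ 2) / (1 + x ^ 2), 2 * x / (1 + x ^ 2), d, by field_simp; ring, ?_⟩
  intro h0
  set c := (1 - x ^ 2) / (1 + x ^ 2) with hc
  have h1 : c * (1 + x ^ 2) = 1 - x ^ 2 := by
    rw [hc]
    field_simp
  have h2 := congrArg d h1
  rw [Derivation.leibniz, map_add, map_sub, Derivation.map_one_eq_zero, sq, Derivation.leibniz] at h2
  simp only [smul_eq_mul, h0] at h2
  have h3 : c * (x * d x + x * d x) = - (x * d x + x * d x) := by linarith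
  have h4 : (c + 1) * (2 * x * d x) = 0 := by linarith
  have h5 : c + 1 = 2 / (1 + x ^ 2) := by
    rw [hc]
    field_simp
    ring
  rw [h5] at h4
  have h6 : (2 / (1 + x ^ 2)) ≠ 0 := by positivity
  have h7 : 2 * x * d x ≠ 0 := by positivity
  exact (mul_ne_zero h6 h7) h4

/-- There is a spherical set of at most eight points in the plane which is not Ramsey. -/
theorem exists_spherical_not_ramsey : ∃ A : Set (EuclideanSpace ℝ (Fin 2)), A.Finite ∧
    (∀ x ∈ A, ‖x‖ = 1) ∧ ¬ IsRamsey A := by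
  obtain ⟨c, s, d, hcs, hd⟩ := exists_octagon_data
  exact ⟨octagon c s, Set.finite_range _, octagon_norm c s hcs, not_isRamsey_octagon c s hcs d hd⟩

end Vale.Agent.Lib.P058.NonRamsey
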