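import Vale.Agent.Lib.P058.Defs
import Vale.Agent.Lib.P058.NonRamsey.Family

/-! # P058: a second moment criterion for a planar set not to be Ramsey

A derivation `δ` of `ℝ` over `ℚ` turns a point `y` of `ℝ^D` into the number `h y = ∑ (δ y_c)²`.
If a real combination of the points of a planar set kills the quadratic functions, then the same
combination of the values of `h` on any congruent copy of the set is a constant `b`. If `b ≠ 0`,
a colouring with finitely many colours has no monochromatic copy. -/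

open scoped BigOperators

namespace Vale.Agent.Lib.P058.NonRamsey.Plane

/-- A real linear equation with coefficients of sum `0` and right side `b ≠ 0` has no monochromatic
solution for a suitable colouring of `ℝ` with finitely many colours. -/
theorem straus_colouring {ι : Type} [Fintype ι] [Nonempty ι] (l : ι → ℝ) (hl : ∑ i, l i = 0)
    (b : ℝ) (hb : b ≠ 0) :
    ∃ (N : ℕ) (χ : ℝ → Fin N), 2 ≤ N ∧
      ∀ t : ι → ℝ, (∀ i j, χ (t i) = χ (t j)) → ∑ i, l i * t i ≠ b := by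
  classical
  set n := Fintype.card ι with hn
  have hn0 : 0 < n := Fintype.card_pos
  set M := 2 * n with hM
  have : NeZero M := ⟨by omega⟩
  let β : ℝ := 1 / (2 * b)
  let e : (ι → ZMod M) ≃ Fin (Fintype.card (ι → ZMod M)) := Fintype.equivFin _
  let col : ℝ → (ι → ZMod M) := fun x j => ((⌊(M : ℝ) * β * l j * x⌋ : ℤ) : ZMod M)
  have hle : Fintype.card (ι → ZMod M) ≤ Fintype.card (ι → ZMod M) + 2 := by omega
  refine ⟨Fintype.card (ι → ZMod M) + 2, fun x => Fin.castLE hle (e (col x)), by omega, ?_⟩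
  intro t ht hsum
  obtain ⟨i0⟩ := ‹Nonempty ι›
  have hcol : ∀ i, col (t i) = col (t i0) := by
    intro i
    have h := ht i i0
    exact e.injective (Fin.castLE_injective hle h)
  have hdvd : ∀ i, ∃ m : ℤ, ⌊(M : ℝ) * β * l i * t i0⌋ - ⌊(M : ℝ) * β * l i * t i⌋ = (M : ℤ) * m := by
    intro i
    have h := congrFun (hcol i) i
    have h' := (ZMod.intCast_eq_intCast_iff_dvd_sub _ _ M).1 h
    exact h'
  choose m hm using hdvd
  -- the errors
  set E : ι → ℝ := fun i =>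
    ((M : ℝ) * β * l i * t i - ⌊(M : ℝ) * β * l i * t i⌋) -
      ((M : ℝ) * β * l i * t i0 - ⌊(M : ℝ) * β * l i * t i0⌋) with hE
  have hE1 : ∀ i, |E i| < 1 := by
    intro i
    have h1 := Int.floor_le ((M : ℝ) * β * l i * t i)
    have h2 := Int.lt_floor_add_one ((M : ℝ) * β * l i * t i)
    have h3 := Int.floor_le ((M : ℝ) * β * l i * t i0)
    have h4 := Int.lt_floor_add_one ((M : ℝ) * β * l i * t i0)
    rw [abs_lt]
    simp only [hE]
    constructor <;> linarith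
  have hM' : (M : ℝ) = 2 * n := by
    rw [hM]; push_cast; ring
  have hn0' : (0 : ℝ) < n := by exact_mod_cast hn0
  have hβ : (M : ℝ) * β * b = n := by
    simp only [β]
    rw [hM']
    field_simp
  have hsum1 : ∑ i, ((M : ℝ) * β * l i * t i) = n := by
    have : ∑ i, ((M : ℝ) * β * l i * t i) = (M : ℝ) * β * ∑ i, l i * t i := by
      rw [Finset.mul_sum]
      exact Finset.sum_congr rfl fun i _ => by ring
    rw [this, hsum, hβ]
  have hsum2 : ∑ i, ((M : ℝ) * β * l i * t i0) = 0 := by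
    have : ∑ i, ((M : ℝ) * β * l i * t i0) = (M : ℝ) * β * t i0 * ∑ i, l i := by
      rw [Finset.mul_sum]
      exact Finset.sum_congr rfl fun i _ => by ring
    rw [this, hl, mul_zero]
  have hEsum : ∑ i, E i = n + (M : ℝ) * ((∑ i, m i : ℤ) : ℝ) := by
    have h5 : ∀ i, E i = ((M : ℝ) * β * l i * t i) - ((M : ℝ) * β * l i * t i0) + (M : ℝ) * (m i : ℝ) := by
      intro i
      have h6 : ((⌊(M : ℝ) * β * l i * t i0⌋ : ℤ) : ℝ) - (⌊(M : ℝ) * β * l i * t i⌋ : ℤ) =
          (M : ℝ) * (m i : ℝ) := by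
        exact_mod_cast hm i
      simp only [hE]
      linarith
    simp only [h5]
    rw [Finset.sum_add_distrib, Finset.sum_sub_distrib, hsum1, hsum2, sub_zero, ← Finset.mul_sum]
    push_cast
    ring
  have hlt : |∑ i, E i| < n := by
    calc |∑ i, E i| ≤ ∑ i, |E i| := Finset.abs_sum_le_sum_abs _ _
      _ < ∑ _i : ι, (1 : ℝ) := Finset.sum_lt_sum_of_nonempty ⟨i0, Finset.mem_univ _⟩ fun i _ => hE1 i
      _ = n := by simp [hn]
  -- the sum is an odd multiple of `n`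
  set S : ℤ := ∑ i, m i with hS
  have hodd : (n : ℝ) ≤ |∑ i, E i| := by
    rw [hEsum, hM']
    have h7 : (n : ℝ) + 2 * n * (S : ℝ) = n * (1 + 2 * (S : ℝ)) := by ring
    rw [h7, abs_mul, abs_of_pos hn0']
    have h8 : (1 : ℝ) ≤ |1 + 2 * (S : ℝ)| := by
      have h9 : (1 : ℤ) ≤ |1 + 2 * S| := Int.one_le_abs (by omega)
      exact_mod_cast h9
    nlinarith
  linarith

/-- Rigidity in the plane: a family of points of `ℝ^D` with the distances of a planar family having
three points off a line is the image of the planar family under an affine isometry. -/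
theorem plane_rigid {ι : Type} {D : ℕ} (p r : ι → ℝ) (y : ι → Fin D → ℝ) (i0 i1 i2 : ι)
    (hdet : (p i1 - p i0) * (r i2 - r i0) - (p i2 - p i0) * (r i1 - r i0) ≠ 0)
    (hd : ∀ i j, ∑ c, (y i c - y j c) ^ 2 = (p i - p j) ^ 2 + (r i - r j) ^ 2) :
    ∃ a q1 q2 : Fin D → ℝ, (∀ i c, y i c = a c + p i * q1 c + r i * q2 c) ∧
      ∑ c, q1 c ^ 2 = 1 ∧ ∑ c, q2 c ^ 2 = 1 ∧ ∑ c, q1 c * q2 c = 0 := by
  set u : ι → Fin D → ℝ := fun i c => y i c - y i0 c with hu
  have hG : ∀ i j, ∑ c, u i c * u j c =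
      (p i - p i0) * (p j - p i0) + (r i - r i0) * (r j - r i0) := by
    intro i j
    have h1 := hd i i0
    have h2 := hd j i0
    have h3 := hd i j
    have e : ∑ c, u i c * u j c =
        ((∑ c, (y i c - y i0 c) ^ 2) + (∑ c, (y j c - y i0 c) ^ 2) -
          ∑ c, (y i c - y j c) ^ 2) / 2 := by
      rw [← Finset.sum_add_distrib, ← Finset.sum_sub_distrib, Finset.sum_div]
      refine Finset.sum_congr rfl fun c _ => ?_
      simp only [hu]
      ring
    rw [e, h1, h2, h3]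
    ring
  set P1 := p i1 - p i0 with hP1
  set R1 := r i1 - r i0 with hR1
  set P2 := p i2 - p i0 with hP2
  set R2 := r i2 - r i0 with hR2
  set Δ := P1 * R2 - P2 * R1 with hΔ
  have hG11 := hG i1 i1
  have hG12 := hG i1 i2
  have hG22 := hG i2 i2
  have expand : ∀ A B C E : ℝ, ∑ c, (A * u i1 c + B * u i2 c) * (C * u i1 c + E * u i2 c) =
      A * C * (P1 * P1 + R1 * R1) + (A * E + B * C) * (P1 * P2 + R1 * R2) +
        B * E * (P2 * P2 + R2 * R2) := by
    intro A B C E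
    have h : ∑ c, (A * u i1 c + B * u i2 c) * (C * u i1 c + E * u i2 c) =
        A * C * ∑ c, u i1 c * u i1 c + (A * E + B * C) * ∑ c, u i1 c * u i2 c +
          B * E * ∑ c, u i2 c * u i2 c := by
      simp only [Finset.mul_sum, ← Finset.sum_add_distrib]
      exact Finset.sum_congr rfl fun c _ => by ring
    rw [h, hG11, hG12, hG22]
  refine ⟨fun c => y i0 c - p i0 * ((R2 / Δ) * u i1 c + (-R1 / Δ) * u i2 c) -
      r i0 * ((-P2 / Δ) * u i1 c + (P1 / Δ) * u i2 c),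
    fun c => (R2 / Δ) * u i1 c + (-R1 / Δ) * u i2 c,
    fun c => (-P2 / Δ) * u i1 c + (P1 / Δ) * u i2 c, ?_, ?_, ?_, ?_⟩
  · intro i c
    set Pi := p i - p i0 with hPi
    set Ri := r i - r i0 with hRi
    set A := Pi * (R2 / Δ) + Ri * (-P2 / Δ) with hA
    set B := Pi * (-R1 / Δ) + Ri * (P1 / Δ) with hB
    have hz : ∑ c, (u i c - (A * u i1 c + B * u i2 c)) ^ 2 = 0 := by
      have h : ∑ c, (u i c - (A * u i1 c + B * u i2 c)) ^ 2 =
          ∑ c, u i c * u i c - 2 * (A * ∑ c, u i c * u i1 c + B * ∑ c, u i c * u i2 c) +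
            ∑ c, (A * u i1 c + B * u i2 c) * (A * u i1 c + B * u i2 c) := by
        simp only [Finset.mul_sum, ← Finset.sum_add_distrib, ← Finset.sum_sub_distrib]
        exact Finset.sum_congr rfl fun c _ => by ring
      rw [h, expand, hG i i, hG i i1, hG i i2, hA, hB]
      have hΔ0 : Δ ≠ 0 := hdet
      have hΔ' : Δ = P1 * R2 - P2 * R1 := hΔ
      field_simp
      rw [hΔ']
      ring
    have hw := (Finset.sum_eq_zero_iff_of_nonneg (fun c _ => sq_nonneg _)).1 hz c (Finset.mem_univ _)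
    have hw' := pow_eq_zero_iff (two_ne_zero) |>.1 hw
    have hyy : y i c = u i c + y i0 c := by simp only [hu]; ring
    simp only []
    rw [hyy]
    have e1 : p i = Pi + p i0 := by rw [hPi]; ring
    have e2 : r i = Ri + r i0 := by rw [hRi]; ring
    rw [e1, e2]
    have e3 : A * u i1 c + B * u i2 c =
        Pi * ((R2 / Δ) * u i1 c + (-R1 / Δ) * u i2 c) +
          Ri * ((-P2 / Δ) * u i1 c + (P1 / Δ) * u i2 c) := by
      rw [hA, hB]; ring
    rw [e3] at hw'
    linear_combination hw'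
  · have h := expand (R2 / Δ) (-R1 / Δ) (R2 / Δ) (-R1 / Δ)
    have h' : ∑ c, ((R2 / Δ) * u i1 c + (-R1 / Δ) * u i2 c) ^ 2 =
        ∑ c, ((R2 / Δ) * u i1 c + (-R1 / Δ) * u i2 c) * ((R2 / Δ) * u i1 c + (-R1 / Δ) * u i2 c) :=
      Finset.sum_congr rfl fun c _ => by ring
    simp only []
    rw [h', h]
    have hΔ0 : Δ ≠ 0 := hdet
    have hΔ' : Δ = P1 * R2 - P2 * R1 := hΔ
    field_simp
    rw [hΔ']
    ring
  · have h := expand (-P2 / Δ) (P1 / Δ) (-P2 / Δ) (P1 / Δ)
    have h' : ∑ c, ((-P2 / Δ) * u i1 c + (P1 / Δ) * u i2 c) ^ 2 =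
        ∑ c, ((-P2 / Δ) * u i1 c + (P1 / Δ) * u i2 c) * ((-P2 / Δ) * u i1 c + (P1 / Δ) * u i2 c) :=
      Finset.sum_congr rfl fun c _ => by ring
    simp only []
    rw [h', h]
    have hΔ0 : Δ ≠ 0 := hdet
    have hΔ' : Δ = P1 * R2 - P2 * R1 := hΔ
    field_simp
    rw [hΔ']
    ring
  · have h := expand (R2 / Δ) (-R1 / Δ) (-P2 / Δ) (P1 / Δ)
    simp only []
    rw [h]
    have hΔ0 : Δ ≠ 0 := hdet
    field_simp
    ring

/-- The second moment identity. -/
theorem second_moment {ι : Type} [Fintype ι] {D : ℕ} (p r l : ι → ℝ) (δ : Derivation ℚ ℝ ℝ)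
    (a q1 q2 : Fin D → ℝ)
    (h1 : ∑ i, l i = 0) (hp : ∑ i, l i * p i = 0) (hr : ∑ i, l i * r i = 0)
    (hdp : ∑ i, l i * δ (p i) = 0) (hdr : ∑ i, l i * δ (r i) = 0)
    (hpp : ∑ i, l i * (p i * p i) = 0) (hpr : ∑ i, l i * (p i * r i) = 0)
    (hrr : ∑ i, l i * (r i * r i) = 0)
    (hsym : ∑ i, l i * (δ (p i) * r i) = ∑ i, l i * (δ (r i) * p i))
    (hq1 : ∑ c, q1 c ^ 2 = 1) (hq2 : ∑ c, q2 c ^ 2 = 1) (hq12 : ∑ c, q1 c * q2 c = 0) :
    ∑ i, l i * ∑ c, δ (a c + p i * q1 c + r i * q2 c) ^ 2 =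
      ∑ i, l i * (δ (p i) ^ 2 + δ (r i) ^ 2) := by
  have hd : ∀ i c, δ (a c + p i * q1 c + r i * q2 c) =
      δ (a c) + p i * δ (q1 c) + q1 c * δ (p i) + r i * δ (q2 c) + q2 c * δ (r i) := by
    intro i c
    rw [map_add, map_add, Derivation.leibniz, Derivation.leibniz]
    simp only [smul_eq_mul]
    ring
  have key : ∀ f g : Fin D → ℝ, δ (∑ c, f c * g c) = ∑ c, (f c * δ (g c) + g c * δ (f c)) := by
    intro f g
    rw [map_sum]
    refine Finset.sum_congr rfl fun c _ => ?_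
    rw [Derivation.leibniz]
    simp only [smul_eq_mul]
  have h11 : ∑ c, q1 c * δ (q1 c) = 0 := by
    have h := key q1 q1
    have e : ∑ c, q1 c * q1 c = 1 := by
      rw [← hq1]
      exact Finset.sum_congr rfl fun c _ => by ring
    rw [e, Derivation.map_one_eq_zero, Finset.sum_add_distrib] at h
    linarith
  have h22 : ∑ c, q2 c * δ (q2 c) = 0 := by
    have h := key q2 q2
    have e : ∑ c, q2 c * q2 c = 1 := by
      rw [← hq2]
      exact Finset.sum_congr rfl fun c _ => by ring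
    rw [e, Derivation.map_one_eq_zero, Finset.sum_add_distrib] at h
    linarith
  have h12 : ∑ c, q1 c * δ (q2 c) + ∑ c, q2 c * δ (q1 c) = 0 := by
    have h := key q1 q2
    rw [hq12, map_zero, Finset.sum_add_distrib] at h
    linarith
  set X := ∑ i, l i * δ (p i) ^ 2 with hX
  set Y := ∑ i, l i * δ (r i) ^ 2 with hY
  set S1 := ∑ i, l i * (p i * δ (p i)) with hS1
  set S2 := ∑ i, l i * (δ (p i) * δ (r i)) with hS2
  set S3 := ∑ i, l i * (δ (p i) * r i) with hS3
  set S5 := ∑ i, l i * (r i * δ (r i)) with hS5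
  have hinner : ∀ c, ∑ i, l i * δ (a c + p i * q1 c + r i * q2 c) ^ 2 =
      q1 c ^ 2 * X + q2 c ^ 2 * Y + 2 * (q1 c * δ (q1 c)) * S1 + 2 * (q1 c * q2 c) * S2 +
        2 * S3 * (q1 c * δ (q2 c) + q2 c * δ (q1 c)) + 2 * (q2 c * δ (q2 c)) * S5 := by
    intro c
    simp only [hd]
    set A := δ (a c)
    set C := δ (q1 c)
    set F := δ (q2 c)
    set B := q1 c
    set E := q2 c
    have h : ∑ i, l i * (A + p i * C + B * δ (p i) + r i * F + E * δ (r i)) ^ 2 =
        A ^ 2 * ∑ i, l i + 2 * (A * C) * ∑ i, l i * p i + 2 * (A * B) * ∑ i, l i * δ (p i) +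
          2 * (A * F) * ∑ i, l i * r i + 2 * (A * E) * ∑ i, l i * δ (r i) +
          C ^ 2 * ∑ i, l i * (p i * p i) + B ^ 2 * X + F ^ 2 * ∑ i, l i * (r i * r i) +
          E ^ 2 * Y + 2 * (C * B) * S1 + 2 * (C * F) * ∑ i, l i * (p i * r i) +
          2 * (C * E) * ∑ i, l i * (δ (r i) * p i) + 2 * (B * F) * S3 + 2 * (B * E) * S2 +
          2 * (F * E) * S5 := by
      simp only [hX, hY, hS1, hS2, hS3, hS5, Finset.mul_sum, ← Finset.sum_add_distrib]
      exact Finset.sum_congr rfl fun i _ => by ring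
    rw [h, h1, hp, hdp, hr, hdr, hpp, hrr, hpr, ← hsym]
    ring
  calc ∑ i, l i * ∑ c, δ (a c + p i * q1 c + r i * q2 c) ^ 2
      = ∑ c, ∑ i, l i * δ (a c + p i * q1 c + r i * q2 c) ^ 2 := by
        simp only [Finset.mul_sum]
        rw [Finset.sum_comm]
    _ = (∑ c, q1 c ^ 2) * X + (∑ c, q2 c ^ 2) * Y + 2 * (∑ c, q1 c * δ (q1 c)) * S1 +
          2 * (∑ c, q1 c * q2 c) * S2 +
          2 * S3 * (∑ c, q1 c * δ (q2 c) + ∑ c, q2 c * δ (q1 c)) +
          2 * (∑ c, q2 c * δ (q2 c)) * S5 := by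
        simp only [hinner]
        simp only [Finset.mul_sum, Finset.sum_mul, ← Finset.sum_add_distrib]
    _ = X + Y := by
        rw [hq1, hq2, h11, hq12, h12, h22]
        ring
    _ = ∑ i, l i * (δ (p i) ^ 2 + δ (r i) ^ 2) := by
        rw [hX, hY, ← Finset.sum_add_distrib]
        exact Finset.sum_congr rfl fun i _ => by ring

/-- Squared distances in `EuclideanSpace`. -/
theorem dist_sq_coord {κ : Type} [Fintype κ] (u v : EuclideanSpace ℝ κ) :
    dist u v ^ 2 = ∑ c, (u c - v c) ^ 2 := by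
  rw [EuclideanSpace.dist_eq, Real.sq_sqrt (Finset.sum_nonneg fun c _ => sq_nonneg _)]
  exact Finset.sum_congr rfl fun c _ => by rw [Real.dist_eq, sq_abs]

/-- **The criterion.** Let `x i = (p i, r i)` be a finite family in the plane with three points off a
line, `δ` a derivation of `ℝ` over `ℚ` and `l` real coefficients such that `∑ l f(x i) = 0` for
every polynomial `f` of degree at most `2`, `∑ l δ(x i) = 0` and `∑ l δ(x i) x iᵀ` is symmetric. If
`∑ l |δ(x i)|² ≠ 0` then the family is not Ramsey. -/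
theorem not_isRamsey_of_plane_identity {ι : Type} [Fintype ι] (p r l : ι → ℝ)
    (δ : Derivation ℚ ℝ ℝ) (i0 i1 i2 : ι)
    (hdet : (p i1 - p i0) * (r i2 - r i0) - (p i2 - p i0) * (r i1 - r i0) ≠ 0)
    (h1 : ∑ i, l i = 0) (hp : ∑ i, l i * p i = 0) (hr : ∑ i, l i * r i = 0)
    (hdp : ∑ i, l i * δ (p i) = 0) (hdr : ∑ i, l i * δ (r i) = 0)
    (hpp : ∑ i, l i * (p i * p i) = 0) (hpr : ∑ i, l i * (p i * r i) = 0)
    (hrr : ∑ i, l i * (r i * r i) = 0)
    (hsym : ∑ i, l i * (δ (p i) * r i) = ∑ i, l i * (δ (r i) * p i))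
    (hb : ∑ i, l i * (δ (p i) ^ 2 + δ (r i) ^ 2) ≠ 0) :
    ¬ IsRamsey (Set.range fun i => (!₂[p i, r i] : EuclideanSpace ℝ (Fin 2))) := by
  intro hR
  have : Nonempty ι := ⟨i0⟩
  obtain ⟨N, χ, hN, hχ⟩ := straus_colouring l h1 _ hb
  obtain ⟨D, _, hD⟩ := hR N hN
  obtain ⟨f, k, hiso, hmono⟩ := hD (fun y => χ (∑ c, δ (y c) ^ 2))
  set pt : ι → EuclideanSpace ℝ (Fin 2) := fun i => !₂[p i, r i] with hpt
  have hmem : ∀ i, pt i ∈ Set.range pt := fun i => ⟨i, rfl⟩
  have hd : ∀ i j, ∑ c, ((f (pt i)) c - (f (pt j)) c) ^ 2 = (p i - p j) ^ 2 + (r i - r j) ^ 2 := by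
    intro i j
    rw [← dist_sq_coord, hiso _ (hmem i) _ (hmem j), dist_sq_coord, Fin.sum_univ_two]
    simp [hpt]
  obtain ⟨a, q1, q2, hy, hq1, hq2, hq12⟩ :=
    plane_rigid p r (fun i c => (f (pt i)) c) i0 i1 i2 hdet hd
  refine hχ (fun i => ∑ c, δ ((f (pt i)) c) ^ 2) (fun i j => ?_) ?_
  · rw [hmono _ (hmem i), hmono _ (hmem j)]
  · have h := second_moment p r l δ a q1 q2 h1 hp hr hdp hdr hpp hpr hrr hsym hq1 hq2 hq12
    simp only [← hy] at h
    exact h

/-- **An octagon on the unit circle which is not Ramsey.** If `c² + s² = 1` and some derivation of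
`ℝ` over `ℚ` does not vanish at `c`, the eight points `(±c, ±s), (±1, 0), (0, ±1)` do not form a
Ramsey set. -/
theorem not_isRamsey_octagon (c s : ℝ) (hcs : c ^ 2 + s ^ 2 = 1) (δ : Derivation ℚ ℝ ℝ)
    (hδ : δ c ≠ 0) :
    ¬ IsRamsey ({!₂[c, s], !₂[c, -s], !₂[-c, s], !₂[-c, -s], !₂[1, 0], !₂[-1, 0], !₂[0, 1], !₂[0, -1]} :
      Set (EuclideanSpace ℝ (Fin 2))) := by
  have h := not_isRamsey_of_plane_identity (ι := Fin 8)
    ![c, c, -c, -c, 1, -1, 0, 0] ![s, -s, s, -s, 0, 0, 1, -1]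
    ![1, 1, 1, 1, -2 * c ^ 2, -2 * c ^ 2, -2 * s ^ 2, -2 * s ^ 2] δ 4 5 6
    (by simp; norm_num) (by simp [Fin.sum_univ_eight]; nlinarith [hcs]) (by simp [Fin.sum_univ_eight])
    (by simp [Fin.sum_univ_eight]) (by simp [Fin.sum_univ_eight, Derivation.map_one_eq_zero])
    (by simp [Fin.sum_univ_eight, Derivation.map_one_eq_zero])
    (by simp [Fin.sum_univ_eight]; nlinarith [hcs]) (by simp [Fin.sum_univ_eight])
    (by simp [Fin.sum_univ_eight]; nlinarith [hcs])
    (by simp [Fin.sum_univ_eight, Derivation.map_one_eq_zero])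
    (by
      simp [Fin.sum_univ_eight, Derivation.map_one_eq_zero]
      intro h0
      have h3 : δ c ^ 2 + δ s ^ 2 ≠ 0 := by positivity
      exact h3 (by linarith))
  convert h using 2
  ext x
  simp only [Set.mem_insert_iff, Set.mem_singleton_iff, Set.mem_range]
  constructor
  · rintro (rfl | rfl | rfl | rfl | rfl | rfl | rfl | rfl)
    · exact ⟨0, by simp⟩
    · exact ⟨1, by simp⟩
    · exact ⟨2, by simp⟩
    · exact ⟨3, by simp⟩
    · exact ⟨4, by simp⟩
    · exact ⟨5, by simp⟩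
    · exact ⟨6, by simp⟩
    · exact ⟨7, by simp⟩
  · rintro ⟨i, rfl⟩
    fin_cases i <;> simp

/-- For every transcendental `c` with `c² < 1` the octagon `(±c, ±s), (±1, 0), (0, ±1)` with
`s = √(1 - c²)` is not Ramsey. -/
theorem not_isRamsey_octagon_of_transcendental {c : ℝ} (hc : Transcendental ℚ c) (hc1 : c ^ 2 < 1) :
    ¬ IsRamsey ({!₂[c, √(1 - c ^ 2)], !₂[c, -√(1 - c ^ 2)], !₂[-c, √(1 - c ^ 2)],
      !₂[-c, -√(1 - c ^ 2)], !₂[1, 0], !₂[-1, 0], !₂[0, 1], !₂[0, -1]} :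
      Set (EuclideanSpace ℝ (Fin 2))) := by
  obtain ⟨d, hd⟩ := Fam12.exists_derivation_ne hc
  refine not_isRamsey_octagon c (√(1 - c ^ 2)) ?_ d hd
  rw [Real.sq_sqrt (by linarith)]
  ring

end Vale.Agent.Lib.P058.NonRamsey.Plane
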