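import Vale.Agent.Lib.P058.NonRamsey.PlaneCrit

/-! # P058: seven points of the unit circle which do not form a Ramsey set -/

open scoped BigOperators

namespace Vale.Agent.Lib.P058.NonRamsey.Plane

/-- Seven points of the unit circle, symmetric in the horizontal axis, which are not Ramsey as soon
as a derivation of `ℝ` moves the horizontal coordinates `u`, `v` by `δ u = u (1 - u)`,
`δ v = v (1 - v)`. -/
theorem not_isRamsey_heptagon (u v s t : ℝ) (δ : Derivation ℚ ℝ ℝ)
    (hs : s ^ 2 = 1 - u ^ 2) (ht : t ^ 2 = 1 - v ^ 2)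
    (hu : δ u = u * (1 - u)) (hv : δ v = v * (1 - v))
    (hu0 : u ≠ 0) (hv0 : v ≠ 0) (hu1 : 1 - u ≠ 0) (hv1 : 1 - v ≠ 0)
    (hu2 : 1 + u ≠ 0) (hv2 : 1 + v ≠ 0) (huv : u ≠ v) :
    ¬ IsRamsey ({!₂[1, 0], !₂[0, 1], !₂[0, -1], !₂[u, s], !₂[u, -s], !₂[v, t], !₂[v, -t]} :
      Set (EuclideanSpace ℝ (Fin 2))) := by
  have hds : s * δ s = -u * δ u := by
    have h := congrArg δ (show s * s = 1 - u * u by linear_combination hs)
    rw [Derivation.leibniz, map_sub, Derivation.leibniz, Derivation.map_one_eq_zero] at h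
    simp only [smul_eq_mul] at h
    linear_combination h / 2
  have hdt : t * δ t = -v * δ v := by
    have h := congrArg δ (show t * t = 1 - v * v by linear_combination ht)
    rw [Derivation.leibniz, map_sub, Derivation.leibniz, Derivation.map_one_eq_zero] at h
    simp only [smul_eq_mul] at h
    linear_combination h / 2
  have hds2 : δ s ^ 2 = u ^ 4 * (1 - u) / (1 + u) := by
    have h1 : (1 - u) * (1 + u) * δ s ^ 2 = u ^ 4 * (1 - u) ^ 2 := by
      have h2 : (s * δ s) ^ 2 = (-u * δ u) ^ 2 := by rw [hds]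
      rw [mul_pow, hs, hu] at h2
      linear_combination h2
    field_simp
    have h3 : (1 - u) * ((1 + u) * δ s ^ 2 - u ^ 4 * (1 - u)) = 0 := by linear_combination h1
    have h4 := (mul_eq_zero.mp h3).resolve_left hu1
    linear_combination h4
  have hdt2 : δ t ^ 2 = v ^ 4 * (1 - v) / (1 + v) := by
    have h1 : (1 - v) * (1 + v) * δ t ^ 2 = v ^ 4 * (1 - v) ^ 2 := by
      have h2 : (t * δ t) ^ 2 = (-v * δ v) ^ 2 := by rw [hdt]
      rw [mul_pow, ht, hv] at h2
      linear_combination h2
    field_simp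
    have h3 : (1 - v) * ((1 + v) * δ t ^ 2 - v ^ 4 * (1 - v)) = 0 := by linear_combination h1
    have h4 := (mul_eq_zero.mp h3).resolve_left hv1
    linear_combination h4
  have hne : u - v ≠ 0 := sub_ne_zero.mpr huv
  have h := not_isRamsey_of_plane_identity (ι := Fin 7)
    ![1, 0, 0, u, u, v, v] ![0, 1, -1, s, -s, t, -t]
    ![2 * u * v * (u - v), -(1 - u) * (1 - v) * (u - v), -(1 - u) * (1 - v) * (u - v),
      -v * (1 - v), -v * (1 - v), u * (1 - u), u * (1 - u)] δ 0 1 2
    (by simp)
    (by simp [Fin.sum_univ_seven]; ring)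
    (by simp [Fin.sum_univ_seven]; ring)
    (by simp [Fin.sum_univ_seven])
    (by simp [Fin.sum_univ_seven, Derivation.map_one_eq_zero, hu, hv]; ring)
    (by simp [Fin.sum_univ_seven, Derivation.map_one_eq_zero])
    (by simp [Fin.sum_univ_seven]; ring)
    (by simp [Fin.sum_univ_seven])
    (by
      simp [Fin.sum_univ_seven]
      have e1 : s * s = 1 - u ^ 2 := by linear_combination hs
      have e2 : t * t = 1 - v ^ 2 := by linear_combination ht
      linear_combination (-v * (1 - v) * 2) * e1 + (u * (1 - u) * 2) * e2)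
    (by simp [Fin.sum_univ_seven, Derivation.map_one_eq_zero])
    (by
      have e : ∑ i : Fin 7,
          (![2 * u * v * (u - v), -(1 - u) * (1 - v) * (u - v), -(1 - u) * (1 - v) * (u - v),
            -v * (1 - v), -v * (1 - v), u * (1 - u), u * (1 - u)] : Fin 7 → ℝ) i *
          (δ ((![1, 0, 0, u, u, v, v] : Fin 7 → ℝ) i) ^ 2 +
            δ ((![0, 1, -1, s, -s, t, -t] : Fin 7 → ℝ) i) ^ 2) =
          2 * u * v * (1 - u) * (1 - v) * (v - u) / ((1 + u) * (1 + v)) := by
        simp [Fin.sum_univ_seven, Derivation.map_one_eq_zero]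
        rw [hu, hv, hds2, hdt2]
        field_simp
        ring
      rw [e]
      have hvu : v - u ≠ 0 := fun h0 => hne (by linarith)
      positivity)
  convert h using 2
  ext x
  simp only [Set.mem_insert_iff, Set.mem_singleton_iff, Set.mem_range]
  constructor
  · rintro (rfl | rfl | rfl | rfl | rfl | rfl | rfl)
    · exact ⟨0, by simp⟩
    · exact ⟨1, by simp⟩
    · exact ⟨2, by simp⟩
    · exact ⟨3, by simp⟩
    · exact ⟨4, by simp⟩
    · exact ⟨5, by simp⟩
    · exact ⟨6, by simp⟩
  · rintro ⟨i, rfl⟩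
    fin_cases i <;> simp

/-- **Seven points.** For every transcendental `u` in `(0, 1)`, with `v = 2 u / (1 + u)`, the seven
points `(1, 0), (0, ±1), (u, ±√(1 - u²)), (v, ±√(1 - v²))` of the unit circle do not form a Ramsey
set. -/
theorem not_isRamsey_heptagon_of_transcendental {u : ℝ} (hu : Transcendental ℚ u) (h0 : 0 < u)
    (h1 : u < 1) :
    ¬ IsRamsey ({!₂[1, 0], !₂[0, 1], !₂[0, -1], !₂[u, √(1 - u ^ 2)], !₂[u, -√(1 - u ^ 2)],
      !₂[2 * u / (1 + u), √(1 - (2 * u / (1 + u)) ^ 2)],
      !₂[2 * u / (1 + u), -√(1 - (2 * u / (1 + u)) ^ 2)]} :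
      Set (EuclideanSpace ℝ (Fin 2))) := by
  obtain ⟨d, hd⟩ := Fam12.exists_derivation_ne hu
  have hp : (0 : ℝ) < 1 + u := by linarith
  set v := 2 * u / (1 + u) with hv
  have hv1 : (1 + u) * v = u + u := by
    rw [hv]
    field_simp
    ring
  have hv0 : 0 < v := by rw [hv]; positivity
  have hvlt : v < 1 := by
    rw [hv, div_lt_one hp]
    linarith
  have huv : u ≠ v := by
    intro h
    rw [← h] at hv1
    nlinarith
  -- rescale the derivation
  set f : ℝ := u * (1 - u) / d u with hf
  let δ : Derivation ℚ ℝ ℝ := f • d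
  have hδ : ∀ x, δ x = f * d x := fun x => by
    simp [δ, Derivation.smul_apply]
  have hδu : δ u = u * (1 - u) := by
    rw [hδ, hf]
    field_simp
  have hδv : δ v = v * (1 - v) := by
    have h := congrArg δ hv1
    rw [Derivation.leibniz, map_add, map_add, Derivation.map_one_eq_zero] at h
    simp only [smul_eq_mul] at h
    rw [hδu] at h
    have h2 : (1 + u) * (δ v - v * (1 - v)) = 0 := by
      have e : (1 + u) * v * (1 - v) = (u + u) * (1 - v) := by rw [hv1]
      have e2 : v * (u * (1 - u)) = ((1 + u) * v) * (u * (1 - u)) / (1 + u) := by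
        field_simp
      have e3 : (1 - u) * (1 + u) * v = (1 - u) * (u + u) := by
        rw [mul_assoc, hv1]
      nlinarith [h, e, e3]
    exact sub_eq_zero.mp ((mul_eq_zero.mp h2).resolve_left hp.ne')
  refine not_isRamsey_heptagon u v _ _ δ (Real.sq_sqrt (by nlinarith)) (Real.sq_sqrt (by nlinarith))
    hδu hδv h0.ne' hv0.ne' (by linarith) (by linarith) hp.ne' (by linarith) huv

end Vale.Agent.Lib.P058.NonRamsey.Plane
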