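import Vale.Agent.Lib.P058.NonRamsey.CriterionG

/-! # P058: every Ramsey set is signed-subtransitive

A finite set `a_i` is subtransitive when it has a finite family of affine functionals
`g_j = p_j + ⟨t_j, ·⟩` with `∑ t_j t_jᵀ = 1` such that the multiset `{g_j (a_i)}_j` does not depend
on `i`. Here we allow signed rational multiplicities. The theorem: a Ramsey set has such a signed
family. Otherwise linear algebra over `ℚ` gives functions `ψ_i` with `∑ ψ_i = 0` and an additive `Ψ`
with `∑ ψ_i (g (a_i)) = Ψ (t tᵀ)`, `Ψ 1 ≠ 0`, and colouring by the residues of `∑_l ψ_i (x_l)` has no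
monochromatic copy. All known obstructions (sphericity, derivations of `ℝ`) are such certificates. -/

namespace Vale.Agent.Lib.P058.NonRamsey

open Finset

/-- **The certificate criterion.** -/
theorem not_isRamsey_of_certificate {n : ℕ} {I : Type} [Fintype I]
    (a : I → EuclideanSpace ℝ (Fin n)) (i₀ : I)
    (hspan : Submodule.span ℝ (Set.range fun i => a i - a i₀) = ⊤)
    (ψ : I → ℝ → ℝ) (Ψ : Matrix (Fin n) (Fin n) ℝ →+ ℝ)
    (h0 : ∀ x, ∑ i, ψ i x = 0)
    (h1 : ∀ (p : ℝ) (t : Fin n → ℝ),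
      ∑ i, ψ i (p + ∑ j, a i j * t j) = Ψ (Matrix.vecMulVec t t))
    (hC : Ψ 1 ≠ 0) : ¬ IsRamsey (Set.range a) := by
  classical
  intro hR
  let m : ℕ := Fintype.card I
  let K : ℕ := 2 * m + 1
  have hKpos : (0 : ℝ) < (K : ℝ) := by
    simp only [K]
    positivity
  set C : ℝ := Ψ 1 with hCdef
  let T := I → Fin K
  let r : ℕ := Fintype.card T + 2
  obtain ⟨D, -, hc⟩ := hR r (by omega)
  let hh : I → EuclideanSpace ℝ (Fin D) → ℝ := fun l x => ∑ q, ψ l (x q)
  let val : I → EuclideanSpace ℝ (Fin D) → ℝ := fun l x => hh l x / (2 * C)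
  have hcell : ∀ l x, ⌊(K : ℝ) * Int.fract (val l x)⌋₊ < K := by
    intro l x
    refine (Nat.floor_lt (mul_nonneg hKpos.le (Int.fract_nonneg _))).2 ?_
    have := Int.fract_lt_one (val l x)
    nlinarith
  let cellF : EuclideanSpace ℝ (Fin D) → T :=
    fun x l => ⟨⌊(K : ℝ) * Int.fract (val l x)⌋₊, hcell l x⟩
  obtain ⟨f, k, hfd, hfc⟩ := hc (fun x => Fin.castLE (by omega) (Fintype.equivFin T (cellF x)))
  let y : I → EuclideanSpace ℝ (Fin D) := fun i => f (a i)
  have hy : ∀ i i', dist (y i) (y i') = dist (a i) (a i') := fun i i' =>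
    hfd _ ⟨i, rfl⟩ _ ⟨i', rfl⟩
  have hmono : ∀ i l, cellF (y i) l = cellF (y i₀) l := by
    intro i l
    have h0 := (hfc (a i) ⟨i, rfl⟩).trans (hfc (a i₀) ⟨i₀, rfl⟩).symm
    have h6 := (Fintype.equivFin T).injective (Fin.castLE_injective _ h0)
    exact congrFun h6 l
  obtain ⟨b, e, he, hye⟩ := G61.exists_frame a i₀ hspan y hy
  -- the identity
  have hid : ∑ i, hh i (y i) = C := by
    have he' : ∀ j k, ∑ l, e j l * e k l = if j = k then (1 : ℝ) else 0 := by
      intro j j'
      rw [← he j j', PiLp.inner_apply]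
      refine Finset.sum_congr rfl fun l _ => ?_
      simp [mul_comm]
    have hc : ∀ i l, y i l = b l + ∑ j, a i j * e j l := by
      intro i l
      rw [hye i]
      simp [Finset.sum_apply]
    have hone : ∑ l, Matrix.vecMulVec (fun j => e j l) (fun j => e j l) =
        (1 : Matrix (Fin n) (Fin n) ℝ) := by
      ext j k
      rw [Matrix.sum_apply, Matrix.one_apply]
      simp only [Matrix.vecMulVec_apply]
      exact he' j k
    simp only [hh, hc]
    rw [Finset.sum_comm]
    have hl : ∀ l, ∑ i, ψ i (b l + ∑ j, a i j * e j l) =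
        Ψ (Matrix.vecMulVec (fun j => e j l) (fun j => e j l)) := fun l =>
      h1 (b l) (fun j => e j l)
    simp only [hl]
    rw [← map_sum, hone]
  -- the cells
  have hxi : ∀ l, ∃ (N : ℤ) (ξ : ℝ), |ξ| ≤ 1 / (K : ℝ) ∧ val l (y l) - val l (y i₀) = N + ξ := by
    intro l
    have h0 : ⌊(K : ℝ) * Int.fract (val l (y l))⌋₊ = ⌊(K : ℝ) * Int.fract (val l (y i₀))⌋₊ :=
      congrArg Fin.val (hmono l l)
    refine ⟨⌊val l (y l)⌋ - ⌊val l (y i₀)⌋, Int.fract (val l (y l)) - Int.fract (val l (y i₀)), ?_, ?_⟩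
    · have hA := mul_nonneg hKpos.le (Int.fract_nonneg (val l (y l)))
      have hB := mul_nonneg hKpos.le (Int.fract_nonneg (val l (y i₀)))
      have a1 := Nat.floor_le hA
      have a2 := Nat.lt_floor_add_one ((K : ℝ) * Int.fract (val l (y l)))
      have b1 := Nat.floor_le hB
      have b2 := Nat.lt_floor_add_one ((K : ℝ) * Int.fract (val l (y i₀)))
      rw [h0] at a1 a2
      set u := Int.fract (val l (y l)) - Int.fract (val l (y i₀)) with hu
      have hu1 : u * (K : ℝ) ≤ 1 := by
        rw [hu]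
        nlinarith
      have hu2 : (-u) * (K : ℝ) ≤ 1 := by
        rw [hu]
        nlinarith
      have hu3 := (le_div_iff₀ hKpos).2 hu1
      have hu4 := (le_div_iff₀ hKpos).2 hu2
      exact abs_le.2 ⟨by linarith, hu3⟩
    · have e1 := Int.floor_add_fract (val l (y l))
      have e2 := Int.floor_add_fract (val l (y i₀))
      push_cast
      linarith
  choose N ξ hξ hval using hxi
  have hsum1 : ∑ l, (val l (y l) - val l (y i₀)) = 1 / 2 := by
    have e1 : ∑ l, val l (y l) = C / (2 * C) := by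
      simp only [val]
      rw [← Finset.sum_div, hid]
    have e2 : ∑ l, val l (y i₀) = 0 := by
      simp only [val]
      rw [← Finset.sum_div]
      have : ∑ l, hh l (y i₀) = 0 := by
        simp only [hh]
        rw [Finset.sum_comm]
        exact Finset.sum_eq_zero fun q _ => h0 _
      rw [this]
      simp
    rw [Finset.sum_sub_distrib, e1, e2, sub_zero]
    field_simp
  have hsum2 : ∑ l, (val l (y l) - val l (y i₀)) = ((∑ l, N l : ℤ) : ℝ) + ∑ l, ξ l := by
    push_cast
    rw [← Finset.sum_add_distrib]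
    exact Finset.sum_congr rfl fun l _ => hval l
  have hΞ : |∑ l, ξ l| ≤ (m : ℝ) / (K : ℝ) := by
    calc |∑ l, ξ l| ≤ ∑ l, |ξ l| := Finset.abs_sum_le_sum_abs _ _
      _ ≤ ∑ _l : I, 1 / (K : ℝ) := Finset.sum_le_sum fun l _ => hξ l
      _ = (m : ℝ) / (K : ℝ) := by
          rw [Finset.sum_const, Finset.card_univ, nsmul_eq_mul]
          ring
  have hmK : (m : ℝ) / (K : ℝ) < 1 / 2 := by
    rw [div_lt_iff₀ hKpos]
    simp only [K]
    push_cast
    linarith
  rw [hsum1] at hsum2
  have hb := abs_le.1 hΞ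
  rcases le_or_gt (∑ l, N l) 0 with hZ | hZ
  · have : ((∑ l, N l : ℤ) : ℝ) ≤ 0 := by exact_mod_cast hZ
    linarith [hb.2]
  · have : (1 : ℝ) ≤ ((∑ l, N l : ℤ) : ℝ) := by exact_mod_cast hZ
    linarith [hb.1]

/-- **Signed subtransitive family**: finitely many affine functionals `g_j = p_j + ⟨t_j, ·⟩` with
signed rational multiplicities `ε_j` such that the signed multiset `{g_j (a_i)}_j` does not depend on
`i`, and `∑ ε_j t_j t_jᵀ` is the identity matrix. With all `ε_j` positive integers this says `a` is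
congruent to a subset of a finite transitive set. -/
def IsSignedSubtransitive {n : ℕ} {I : Type} [Fintype I]
    (a : I → EuclideanSpace ℝ (Fin n)) : Prop :=
  ∃ (J : Finset (ℝ × (Fin n → ℝ))) (ε : ℝ × (Fin n → ℝ) → ℚ),
    (∀ (i i' : I) (x : ℝ),
      ∑ g ∈ J with g.1 + ∑ k, a i k * g.2 k = x, ε g =
        ∑ g ∈ J with g.1 + ∑ k, a i' k * g.2 k = x, ε g) ∧
    ∑ g ∈ J, ((ε g : ℝ)) • Matrix.vecMulVec g.2 g.2 = (1 : Matrix (Fin n) (Fin n) ℝ)

section duality

variable {n : ℕ} {I : Type} [Fintype I] [DecidableEq I]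

/-- The space in which the signed families live. -/
abbrev SignedSpace (n : ℕ) (I : Type) := (I → (ℝ →₀ ℚ)) × Matrix (Fin n) (Fin n) ℝ

/-- The element of one affine functional. -/
noncomputable def signedGen (a : I → EuclideanSpace ℝ (Fin n)) (i₀ : I) (g : ℝ × (Fin n → ℝ)) :
    SignedSpace n I :=
  (fun i => Finsupp.single (g.1 + ∑ k, a i k * g.2 k) (1 : ℚ) -
      Finsupp.single (g.1 + ∑ k, a i₀ k * g.2 k) (1 : ℚ),
    Matrix.vecMulVec g.2 g.2)

/-- **Every Ramsey set is signed-subtransitive.** -/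
theorem isSignedSubtransitive_of_isRamsey (a : I → EuclideanSpace ℝ (Fin n)) (i₀ : I)
    (hspan : Submodule.span ℝ (Set.range fun i => a i - a i₀) = ⊤)
    (hR : IsRamsey (Set.range a)) : IsSignedSubtransitive a := by
  classical
  let S : Submodule ℚ (SignedSpace n I) := Submodule.span ℚ (Set.range (signedGen a i₀))
  by_cases hmem : ((0, 1) : SignedSpace n I) ∈ S
  · obtain ⟨c, hc⟩ := (Finsupp.mem_span_range_iff_exists_finsupp).1 hmem
    rw [Finsupp.sum] at hc
    have hfst := congrArg Prod.fst hc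
    have hsnd := congrArg Prod.snd hc
    rw [Prod.fst_sum] at hfst
    rw [Prod.snd_sum] at hsnd
    have key : ∀ i x, ∑ g ∈ c.support with g.1 + ∑ k, a i k * g.2 k = x, c g =
        ∑ g ∈ c.support with g.1 + ∑ k, a i₀ k * g.2 k = x, c g := by
      intro i x
      have h1 := congrArg (fun z : I → (ℝ →₀ ℚ) => z i x) hfst
      simp only [signedGen, Prod.smul_fst, Finset.sum_apply, Finsupp.finsetSum_apply, Pi.smul_apply,
        Finsupp.smul_apply, Finsupp.sub_apply, Finsupp.single_apply, smul_eq_mul, mul_sub, mul_ite,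
        mul_one, mul_zero, Finset.sum_sub_distrib, Pi.zero_apply, Finsupp.coe_zero] at h1
      rw [Finset.sum_filter, Finset.sum_filter]
      linarith
    refine ⟨c.support, c, fun i i' x => (key i x).trans (key i' x).symm, ?_⟩
    ext j k
    have h2 := congrArg (fun z : Matrix (Fin n) (Fin n) ℝ => z j k) hsnd
    simp only [signedGen, Prod.smul_snd, Matrix.sum_apply, Matrix.smul_apply] at h2
    rw [Matrix.sum_apply]
    simp only [Matrix.smul_apply, smul_eq_mul]
    rw [← h2]
    refine Finset.sum_congr rfl fun g _ => ?_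
    rw [Rat.smul_def]
  · exfalso
    obtain ⟨f, hf1, hf2⟩ := Submodule.exists_dual_map_eq_bot_of_notMem hmem inferInstance
    have hf0 : ∀ g, f (signedGen a i₀ g) = 0 := by
      intro g
      have h1 : f (signedGen a i₀ g) ∈ S.map f :=
        Submodule.mem_map_of_mem (Submodule.subset_span ⟨g, rfl⟩)
      exact (Submodule.eq_bot_iff _).1 hf2 _ h1
    let F1 : (I → (ℝ →₀ ℚ)) → ℚ := fun u => f (u, 0)
    let F2 : Matrix (Fin n) (Fin n) ℝ → ℚ := fun v => f (0, v)
    have hsplit : ∀ u v, f (u, v) = F1 u + F2 v := by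
      intro u v
      simp only [F1, F2]
      rw [← map_add]
      simp
    have hF2add : ∀ v w, F2 (v + w) = F2 v + F2 w := by
      intro v w
      simp only [F2]
      rw [← map_add]
      simp
    have hF2zero : F2 0 = 0 := by
      simp only [F2]
      exact map_zero f
    let ψ0 : I → ℝ → ℚ := fun i x => F1 (Pi.single i (Finsupp.single x 1))
    have hF1 : ∀ u : I → (ℝ →₀ ℚ), F1 u = ∑ i, F1 (Pi.single i (u i)) := by
      intro u
      have h1 : ((u, 0) : SignedSpace n I) = ∑ i, ((Pi.single i (u i), 0) : SignedSpace n I) := by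
        rw [Prod.ext_iff]
        constructor
        · rw [Prod.fst_sum]
          exact (Finset.univ_sum_single u).symm
        · rw [Prod.snd_sum]
          simp
      simp only [F1]
      rw [h1, map_sum]
    have hF1sub : ∀ (i : I) (x y : ℝ), F1 (Pi.single i (Finsupp.single x 1 - Finsupp.single y 1)) =
        ψ0 i x - ψ0 i y := by
      intro i x y
      simp only [F1, ψ0]
      rw [← map_sub]
      congr 1
      rw [Prod.ext_iff]
      constructor
      · simp only [Prod.fst_sub]
        exact Pi.single_sub _ _ _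
      · simp
    let ψ : I → ℝ → ℝ := fun i x =>
      ((ψ0 i x : ℚ) : ℝ) - if i = i₀ then ∑ i', ((ψ0 i' x : ℚ) : ℝ) else 0
    let Ψ : Matrix (Fin n) (Fin n) ℝ →+ ℝ :=
      { toFun := fun v => -((F2 v : ℚ) : ℝ)
        map_zero' := by simp [hF2zero]
        map_add' := by
          intro v w
          rw [hF2add]
          push_cast
          ring }
    refine not_isRamsey_of_certificate a i₀ hspan ψ Ψ ?_ ?_ ?_ hR
    · intro x
      simp only [ψ]
      rw [Finset.sum_sub_distrib, Finset.sum_ite_eq' Finset.univ i₀]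
      simp
    · intro p t
      have h1 := hf0 (p, t)
      rw [signedGen, hsplit, hF1] at h1
      simp only [hF1sub] at h1
      simp only [ψ]
      rw [Finset.sum_sub_distrib]
      have h3 : ∑ i, (if i = i₀ then ∑ i', ((ψ0 i' (p + ∑ j, a i j * t j) : ℚ) : ℝ) else 0) =
          ∑ i', ((ψ0 i' (p + ∑ j, a i₀ j * t j) : ℚ) : ℝ) := by
        rw [Finset.sum_ite_eq' Finset.univ i₀]
        simp
      rw [h3]
      have h4 : (((∑ i, (ψ0 i (p + ∑ k, a i k * t k) - ψ0 i (p + ∑ k, a i₀ k * t k)) +
          F2 (Matrix.vecMulVec t t) : ℚ)) : ℝ) = 0 := by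
        rw [h1]
        simp
      push_cast at h4
      rw [Finset.sum_sub_distrib] at h4
      change _ = -((F2 (Matrix.vecMulVec t t) : ℚ) : ℝ)
      linarith
    · change -((F2 1 : ℚ) : ℝ) ≠ 0
      have h1 : F2 1 ≠ 0 := hf1
      simpa using h1

end duality

end Vale.Agent.Lib.P058.NonRamsey
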