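import Vale.Agent.Lib.P058.NonRamsey.Criterion

/-! # P058: a necessary condition for a finite set to be Ramsey, in span form

Linear duality on the finite dimensional space `κ → ℝ` turns the criterion `not_isRamsey` into a
membership statement. -/

namespace Vale.Agent.Lib.P058.NonRamsey.SpanForm

open Vale.Agent.Lib.P058 Vale.Agent.Lib.P058.NonRamsey

/-- The functions on the index set that every Ramsey family must use to write `|d a|²`. -/
def testFunctions {κ ι : Type} (a : κ → EuclideanSpace ℝ ι) (d : Derivation ℚ ℝ ℝ) :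
    Set (κ → ℝ) :=
  {fun _ => 1} ∪ Set.range (fun l : ι => fun k => a k l) ∪
    Set.range (fun p : ι × ι => fun k => a k p.1 * a k p.2) ∪
    Set.range (fun l : ι => fun k => d (a k l)) ∪
    Set.range (fun p : ι × ι => fun k => a k p.1 * d (a k p.2) - a k p.2 * d (a k p.1))

/-- **Necessary condition.** If a finite family `a` affinely spanning its Euclidean space is Ramsey,
then for every derivation `d` of `ℝ` over `ℚ` the function `k ↦ |d a_k|²` is a real linear
combination of the functions `1`, `a^l`, `a^l a^m`, `d a^l`, `a^l d a^m - a^m d a^l`. -/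
theorem mem_span_of_isRamsey {κ ι : Type} [Fintype κ] [Fintype ι] [DecidableEq κ] [DecidableEq ι]
    (a : κ → EuclideanSpace ℝ ι)
    (c : ι → κ → ℝ) (hc0 : ∀ l, ∑ k, c l k = 0)
    (hc1 : ∀ l m, ∑ k, c l k * a k m = if l = m then 1 else 0)
    (hR : IsRamsey (Set.range a)) (d : Derivation ℚ ℝ ℝ) :
    (fun k => ∑ l, (d (a k l)) ^ 2) ∈ Submodule.span ℝ (testFunctions a d) := by
  by_contra hnot
  obtain ⟨φ, hφ1, hφ2⟩ : ∃ φ : Module.Dual ℝ (κ → ℝ),
      φ (fun k => ∑ l, (d (a k l)) ^ 2) ≠ 0 ∧ ∀ g ∈ Submodule.span ℝ (testFunctions a d), φ g = 0 := by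
    obtain ⟨f, hf1, hf2⟩ := Submodule.exists_le_ker_of_notMem hnot
    exact ⟨f, hf1, fun g hg => hf2 hg⟩
  let μ : κ → ℝ := fun k => φ (Pi.single k 1)
  have hφ : ∀ g : κ → ℝ, φ g = ∑ k, μ k * g k := by
    intro g
    have hg : g = ∑ k, g k • (Pi.single k (1 : ℝ) : κ → ℝ) := by
      funext i
      simp [Finset.sum_apply, Pi.single_apply]
    conv_lhs => rw [hg]
    rw [map_sum]
    refine Finset.sum_congr rfl (fun k _ => ?_)
    rw [map_smul, smul_eq_mul, mul_comm]
  have hmem : ∀ g ∈ testFunctions a d, ∑ k, μ k * g k = 0 := by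
    intro g hg
    rw [← hφ]
    exact hφ2 g (Submodule.subset_span hg)
  refine not_isRamsey a c hc0 hc1 μ ?_ ?_ ?_ d ?_ ?_ ?_ hR
  · have := hmem (fun _ => 1) (by simp [testFunctions])
    simpa using this
  · intro l
    exact hmem (fun k => a k l) (by
      refine Or.inl (Or.inl (Or.inl (Or.inr ⟨l, rfl⟩))))
  · intro l m
    exact hmem (fun k => a k l * a k m) (by
      refine Or.inl (Or.inl (Or.inr ⟨(l, m), rfl⟩)))
  · intro l
    exact hmem (fun k => d (a k l)) (by
      refine Or.inl (Or.inr ⟨l, rfl⟩))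
  · intro l m
    exact hmem (fun k => a k l * d (a k m) - a k m * d (a k l)) (by
      refine Or.inr ⟨(l, m), rfl⟩)
  · rw [← hφ]
    exact hφ1

end Vale.Agent.Lib.P058.NonRamsey.SpanForm
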