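import Vale.Agent.Lib.P058.NonRamsey.Core
import Vale.Agent.Lib.P058.SubtransBridge

/-! # P058: the twelve points for a transcendental `c` are not Ramsey

A transcendental number is part of a transcendence basis of `ℝ` over `ℚ`, so some derivation of `ℝ`
over `ℚ` does not vanish on it; the derivation is the partial derivative of that basis element
extended along the formally etale extension, as in `Deriv`. -/

namespace Vale.Agent.Lib.P058.NonRamsey.Trans

open KaehlerDifferential Vale.Agent.Lib.P058 Vale.Agent.Lib.P058.NonRamsey.Core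
open scoped IntermediateField.algebraAdjoinAdjoin

/-- A derivation of `ℝ` over `ℚ` not vanishing at a given transcendental number. -/
theorem exists_derivation_ne (c : ℝ) (hc : Transcendental ℚ c) :
    ∃ d : Derivation ℚ ℝ ℝ, d c ≠ 0 := by
  obtain ⟨s, hsub, hs⟩ := exists_isTranscendenceBasis_superset (R := ℚ) (A := ℝ) (s := {c})
    (by
      change AlgebraicIndependent ℚ (fun i : ({c} : Set ℝ) => id (i : ℝ))
      exact algebraicIndependent_unique_type_iff.2 hc)
  let i₀ : s := ⟨c, hsub rfl⟩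
  let v : s → ℝ := (↑)
  have hb : AlgebraicIndependent ℚ v := hs.1
  let S := Algebra.adjoin ℚ (Set.range v)
  let K := IntermediateField.adjoin ℚ (Set.range v)
  have h1 : Algebra.FormallyEtale S K := .of_isLocalization (nonZeroDivisors _)
  have halg : Algebra.IsAlgebraic K ℝ := hs.isAlgebraic_field
  have hsep : Algebra.IsSeparable K ℝ := Algebra.IsAlgebraic.isSeparable_of_perfectField
  have h2 : Algebra.FormallyEtale K ℝ := .of_isSeparable K ℝ
  have h3 : Algebra.FormallyEtale S ℝ := .comp S K ℝ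
  let e : MvPolynomial s ℚ ≃ₐ[ℚ] S := hb.aevalEquiv
  let δl : S →ₗ[ℚ] ℝ := (S.val).toLinearMap ∘ₗ e.toLinearMap ∘ₗ
    ((MvPolynomial.pderiv i₀ : Derivation ℚ _ _).toLinearMap) ∘ₗ e.symm.toLinearMap
  have hδl : ∀ a, δl a = ((e (MvPolynomial.pderiv i₀ (e.symm a)) : S) : ℝ) := fun a => rfl
  let δ : Derivation ℚ S ℝ := Derivation.mk' δl (by
    intro a b
    rw [hδl, hδl, hδl, map_mul, Derivation.leibniz, map_add]
    simp only [smul_eq_mul, map_mul, AlgEquiv.apply_symm_apply]
    rfl)
  let φ : Ω[ℝ⁄ℚ] →ₗ[ℝ] ℝ :=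
    (LinearMap.liftBaseChange ℝ δ.liftKaehlerDifferential) ∘ₗ
      (tensorKaehlerEquivOfFormallyEtale ℚ S ℝ).symm.toLinearMap
  refine ⟨φ.compDer (D ℚ ℝ), ?_⟩
  have hv : (e (MvPolynomial.X i₀) : S) = ⟨v i₀, Algebra.subset_adjoin ⟨i₀, rfl⟩⟩ := by
    apply Subtype.ext
    simp [e, AlgebraicIndependent.aevalEquiv]
  have key : φ (D ℚ ℝ (algebraMap S ℝ (e (MvPolynomial.X i₀)))) = 1 := by
    change LinearMap.liftBaseChange ℝ δ.liftKaehlerDifferential
      ((tensorKaehlerEquivOfFormallyEtale ℚ S ℝ).symm (D ℚ ℝ (algebraMap S ℝ _))) = 1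
    rw [tensorKaehlerEquivOfFormallyEtale_symm_D_algebraMap, LinearMap.liftBaseChange_tmul, one_smul,
      Derivation.liftKaehlerDifferential_comp_D]
    change δl _ = 1
    rw [hδl, AlgEquiv.symm_apply_apply, MvPolynomial.pderiv_X_self, map_one]
    rfl
  have e2 : algebraMap S ℝ (e (MvPolynomial.X i₀)) = v i₀ := by
    rw [hv]
    rfl
  rw [e2] at key
  change φ (D ℚ ℝ (v i₀)) ≠ 0
  rw [key]
  exact one_ne_zero

/-- For a transcendental `c` the twelve points are not Ramsey. -/
theorem not_isRamsey_of_transcendental (c s : ℝ) (hcs : c ^ 2 + s ^ 2 = 1)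
    (hc : Transcendental ℚ c) : ¬ IsRamsey (dodeca c s) := by
  obtain ⟨d, hd⟩ := exists_derivation_ne c hc
  exact not_isRamsey_dodeca d c s hcs (Or.inl hd)

/-- For rational `(c, s)` the twelve points are Ramsey. -/
theorem isRamsey_of_rational (c s : ℚ) (hcs : (c : ℝ) ^ 2 + (s : ℝ) ^ 2 = 1) :
    IsRamsey (dodeca (c : ℝ) (s : ℝ)) := by
  have key : ∀ a b : ℚ, ∀ j : Fin 2, ∃ q : ℚ, (pt (a : ℝ) (b : ℝ)) j = q := by
    intro a b j
    fin_cases j
    · exact ⟨a, by simp [pt]⟩
    · exact ⟨b, by simp [pt]⟩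
  refine Bridge.isRamsey_rational_spherical _ (by unfold dodeca; exact Set.toFinite _) ?_
    ⟨pt 0 0, 1, dodeca_sphere _ _ hcs⟩
  intro x hx
  simp only [dodeca, Set.mem_insert_iff, Set.mem_singleton_iff] at hx
  rcases hx with rfl | rfl | rfl | rfl | rfl | rfl | rfl | rfl | rfl | rfl | rfl | rfl
  · simpa using key 1 0
  · simpa using key (-1) 0
  · simpa using key 0 1
  · simpa using key 0 (-1)
  · exact key c s
  · simpa using key c (-s)
  · simpa using key (-c) s
  · simpa using key (-c) (-s)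
  · exact key s c
  · simpa using key s (-c)
  · simpa using key (-s) c
  · simpa using key (-s) (-c)

/-- In the family of twelve points on the unit circle, the parameters with rational coordinates give
Ramsey sets and the parameters with transcendental `c` give sets that are not Ramsey. -/
theorem dichotomy :
    (∀ c s : ℚ, (c : ℝ) ^ 2 + (s : ℝ) ^ 2 = 1 → IsRamsey (dodeca (c : ℝ) (s : ℝ))) ∧
    (∀ c s : ℝ, c ^ 2 + s ^ 2 = 1 → Transcendental ℚ c → ¬ IsRamsey (dodeca c s)) :=
  ⟨isRamsey_of_rational, not_isRamsey_of_transcendental⟩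

end Vale.Agent.Lib.P058.NonRamsey.Trans
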